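/-
Row 210 (S0432), layer LI (superposition principle, lifting of couplings).  Architect: helper332.
DEFINITIONS of the layer.  Everything is stated with the frozen notions (`Curve`, `Time`, `clampTime`, `IsGeodesic`, ...).

* `li_GeoSpace X`  : any two points are joined by a frozen geodesic (layer CD3 provides it).
* `li_dy n i`      : the dyadic time `i / 2^n` (clamped to `[0,1]`, so `li_dy n i = timeOne` for `i ≥ 2^n`).
* `li_en n γ`      : dyadic energy `Σ_{i<2^n} 2^n d(γ(i/2^n), γ((i+1)/2^n))²`  (continuous in `γ`, nondecreasing in `n`).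
* `li_energy γ`    : `⨆ n, li_en n γ`  (lower semicontinuous; `= ∫ metricSpeed²` for AC² curves, `∞` otherwise).
* `li_PG n`        : curves which are constant speed geodesics on every `[i/2^n,(i+1)/2^n]`.
* `li_Adm γ a`     : `a` is an admissible density for `γ` (as in the frozen `IsAC2`, without the integrability).
-/
import Claimed.Agent.R210.Defs

set_option autoImplicit false

open Claims.C0366 Claims.C0366.WeakHessian
open Set Filter MeasureTheory
open scoped ENNReal NNReal Topology

namespace Claimed.Agent.R210.LI.Defs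

noncomputable section

/-- Any two points are joined by a (frozen) geodesic. -/
def li_GeoSpace (X : Type*) [MetricSpace X] : Prop :=
  ∀ x y : X, ∃ γ : Curve X, IsGeodesic γ ∧ γ timeZero = x ∧ γ timeOne = y

/-- The dyadic time `i / 2^n`, clamped to `[0,1]`. -/
def li_dy (n i : ℕ) : Time := clampTime ((i : ℝ) / 2 ^ n)

variable {X : Type*} [MetricSpace X]

/-- Dyadic energy of level `n`. -/
def li_en (n : ℕ) (γ : Curve X) : ℝ≥0∞ :=
  ∑ i ∈ Finset.range (2 ^ n),
    (2 : ℝ≥0∞) ^ n * edist (γ (li_dy n i)) (γ (li_dy n (i + 1))) ^ 2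

/-- Real valued version of `li_en`. -/
def li_enR (n : ℕ) (γ : Curve X) : ℝ :=
  ∑ i ∈ Finset.range (2 ^ n),
    (2 : ℝ) ^ n * dist (γ (li_dy n i)) (γ (li_dy n (i + 1))) ^ 2

/-- The energy: supremum of the dyadic energies. -/
def li_energy (γ : Curve X) : ℝ≥0∞ := ⨆ n, li_en n γ

/-- Curves which are constant speed geodesics on each dyadic interval of level `n`. -/
def li_PG (n : ℕ) : Set (Curve X) :=
  {γ | ∀ i < 2 ^ n, ∀ s t : Time,
    ((li_dy n i : Time) : ℝ) ≤ s → (s : ℝ) ≤ (li_dy n (i + 1) : Time) →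
    ((li_dy n i : Time) : ℝ) ≤ t → (t : ℝ) ≤ (li_dy n (i + 1) : Time) →
      dist (γ s) (γ t)
        = 2 ^ n * |(s : ℝ) - (t : ℝ)| * dist (γ (li_dy n i)) (γ (li_dy n (i + 1)))}

/-- `a` is an admissible density for the curve `γ`. -/
def li_Adm (γ : Curve X) (a : ℝ → ℝ≥0∞) : Prop :=
  Measurable a ∧ ∀ s t : Time, (s : ℝ) ≤ (t : ℝ) →
    edist (γ s) (γ t) ≤ ∫⁻ r in Set.Icc (s : ℝ) (t : ℝ), a r

end

end Claimed.Agent.R210.LI.Defs
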