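/-
Row 210 (S0432), layer LI, file Dy: arithmetic of the dyadic times `li_dy n i = clampTime (i / 2^n)`.      Architect: helper332.
All proofs: unfold `li_dy, clampTime, timeZero, timeOne`; `Subtype.ext`; `max_eq_right`, `min_eq_right/left`; `div_le_one`, `Nat.cast_le`, `pow_succ`, `field_simp`.
`li_dy_floor_*`: `Nat.floor_le`, `Nat.lt_floor_add_one`, `t.2.1 : 0 ≤ t`, `t.2.2 : t ≤ 1`;  the floor is `≤ 2^n` because `t * 2^n ≤ 2^n` (`Nat.floor_le_of_le`-type / `Nat.le_floor`...).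
`li_dy_ceil_*`: the same with `Nat.ceil` (`Nat.le_ceil`, `Nat.ceil_lt_add_one`);  if `⌈t 2^n⌉ ≥ 2^n` the value is `timeOne`, still `≥ t`.
`*_tendsto`: squeeze in `ℝ` (`tendsto_subtype_rng` / `Subtype` topology: `tendsto_subtype_rng.2`), `1/2^n → 0` (`tendsto_pow_atTop_nhds_zero_of_lt_one` with `one_div_pow`).
`li_sum_double`: induction on `N` (`Finset.sum_range_succ`, `Nat.mul_succ`).
-/
import Claimed.Agent.R210.LI.Defs

set_option autoImplicit false

open Claims.C0366 Claims.C0366.WeakHessian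
open Set Filter MeasureTheory
open scoped ENNReal NNReal Topology

namespace Claimed.Agent.R210.LI.Dy

open Claimed.Agent.R210.LI.Defs

theorem li_clamp_coe {t : ℝ} (h0 : 0 ≤ t) (h1 : t ≤ 1) : ((clampTime t : Time) : ℝ) = t := by
  show max 0 (min 1 t) = t
  rw [min_eq_right h1, max_eq_right h0]

theorem li_clamp_self (t : Time) : clampTime (t : ℝ) = t :=
  Subtype.ext (li_clamp_coe t.2.1 t.2.2)

theorem li_dy_coe {n i : ℕ} (h : i ≤ 2 ^ n) : ((li_dy n i : Time) : ℝ) = (i : ℝ) / 2 ^ n := by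
  have hp : (0 : ℝ) < 2 ^ n := by positivity
  refine li_clamp_coe (by positivity) ?_
  rw [div_le_one hp]
  exact_mod_cast h

theorem li_dy_zero (n : ℕ) : li_dy n 0 = timeZero := by
  apply Subtype.ext
  rw [li_dy_coe (Nat.zero_le _)]
  simp [timeZero]

theorem li_dy_top {n i : ℕ} (h : 2 ^ n ≤ i) : li_dy n i = timeOne := by
  have hp : (0 : ℝ) < 2 ^ n := by positivity
  have h1 : (1 : ℝ) ≤ (i : ℝ) / 2 ^ n := by
    rw [one_le_div hp]
    exact_mod_cast h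
  apply Subtype.ext
  show max 0 (min 1 ((i : ℝ) / 2 ^ n)) = 1
  rw [min_eq_left h1, max_eq_right zero_le_one]

theorem li_dy_zero_one : li_dy 0 1 = timeOne := li_dy_top (by simp)

theorem li_dy_double (n i : ℕ) : li_dy (n + 1) (2 * i) = li_dy n i := by
  unfold li_dy
  congr 1
  have hp : (2 : ℝ) ^ n ≠ 0 := by positivity
  push_cast
  rw [pow_succ]
  field_simp

theorem li_dy_mul (n k i : ℕ) : li_dy (n + k) (2 ^ k * i) = li_dy n i := by
  unfold li_dy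
  congr 1
  have hp : (2 : ℝ) ^ n ≠ 0 := by positivity
  have hk : (2 : ℝ) ^ k ≠ 0 := by positivity
  push_cast
  rw [pow_add]
  field_simp

theorem li_dy_mono (n : ℕ) : Monotone (li_dy n) := by
  intro i j hij
  have hp : (0 : ℝ) < 2 ^ n := by positivity
  have h : (i : ℝ) / 2 ^ n ≤ (j : ℝ) / 2 ^ n := by
    apply div_le_div_of_nonneg_right _ hp.le
    exact_mod_cast hij
  show max 0 (min 1 ((i : ℝ) / 2 ^ n)) ≤ max 0 (min 1 ((j : ℝ) / 2 ^ n))
  exact max_le_max le_rfl (min_le_min le_rfl h)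

/-- length of a dyadic interval. -/
theorem li_dy_succ_sub {n i : ℕ} (h : i < 2 ^ n) :
    ((li_dy n (i + 1) : Time) : ℝ) - (li_dy n i : Time) = 1 / 2 ^ n := by
  rw [li_dy_coe (Nat.succ_le_of_lt h), li_dy_coe h.le]
  push_cast
  ring

theorem li_floor_le_pow (n : ℕ) (t : Time) : ⌊(t : ℝ) * 2 ^ n⌋₊ ≤ 2 ^ n := by
  have hp : (0 : ℝ) < 2 ^ n := by positivity
  have h : (t : ℝ) * 2 ^ n ≤ ((2 ^ n : ℕ) : ℝ) := by
    push_cast
    nlinarith [t.2.2]
  exact Nat.floor_le_of_le h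

theorem li_dy_floor_le (n : ℕ) (t : Time) : ((li_dy n ⌊(t : ℝ) * 2 ^ n⌋₊ : Time) : ℝ) ≤ t := by
  have hp : (0 : ℝ) < 2 ^ n := by positivity
  rw [li_dy_coe (li_floor_le_pow n t), div_le_iff₀ hp]
  exact Nat.floor_le (mul_nonneg t.2.1 hp.le)

theorem li_dy_floor_sub_le (n : ℕ) (t : Time) :
    (t : ℝ) - (li_dy n ⌊(t : ℝ) * 2 ^ n⌋₊ : Time) ≤ 1 / 2 ^ n := by
  have hp : (0 : ℝ) < 2 ^ n := by positivity
  rw [li_dy_coe (li_floor_le_pow n t), sub_le_iff_le_add, ← add_div, le_div_iff₀ hp]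
  have := (Nat.lt_floor_add_one ((t : ℝ) * 2 ^ n)).le
  linarith

theorem li_tendsto_one_div_pow : Tendsto (fun n : ℕ => (1 : ℝ) / 2 ^ n) atTop (𝓝 0) := by
  have := tendsto_pow_atTop_nhds_zero_of_lt_one (r := (1 / 2 : ℝ)) (by norm_num) (by norm_num)
  simpa [one_div_pow] using this

theorem li_dy_floor_tendsto (t : Time) :
    Tendsto (fun n : ℕ => li_dy n ⌊(t : ℝ) * 2 ^ n⌋₊) atTop (𝓝 t) := by
  rw [tendsto_subtype_rng]
  have h1 : Tendsto (fun n : ℕ => (t : ℝ) - 1 / 2 ^ n) atTop (𝓝 (t : ℝ)) := by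
    simpa using (tendsto_const_nhds (x := (t : ℝ))).sub li_tendsto_one_div_pow
  refine tendsto_of_tendsto_of_tendsto_of_le_of_le h1 tendsto_const_nhds ?_ ?_
  · intro n
    have := li_dy_floor_sub_le n t
    show (t : ℝ) - 1 / 2 ^ n ≤ _
    linarith
  · intro n
    exact li_dy_floor_le n t

theorem li_dy_le_ceil (n : ℕ) (t : Time) : (t : ℝ) ≤ (li_dy n ⌈(t : ℝ) * 2 ^ n⌉₊ : Time) := by
  have hp : (0 : ℝ) < 2 ^ n := by positivity
  rcases le_total ⌈(t : ℝ) * 2 ^ n⌉₊ (2 ^ n) with h | h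
  · rw [li_dy_coe h, le_div_iff₀ hp]
    exact Nat.le_ceil _
  · rw [li_dy_top h]
    exact t.2.2

theorem li_dy_ceil_sub_le (n : ℕ) (t : Time) :
    ((li_dy n ⌈(t : ℝ) * 2 ^ n⌉₊ : Time) : ℝ) - t ≤ 1 / 2 ^ n := by
  have hp : (0 : ℝ) < 2 ^ n := by positivity
  have h : ⌈(t : ℝ) * 2 ^ n⌉₊ ≤ 2 ^ n := by
    apply Nat.ceil_le.2
    push_cast
    nlinarith [t.2.2]
  rw [li_dy_coe h, sub_le_iff_le_add, div_add' _ _ _ hp.ne', div_le_div_iff_of_pos_right hp]
  have := (Nat.ceil_lt_add_one (mul_nonneg t.2.1 hp.le)).le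
  linarith

theorem li_dy_ceil_tendsto (t : Time) :
    Tendsto (fun n : ℕ => li_dy n ⌈(t : ℝ) * 2 ^ n⌉₊) atTop (𝓝 t) := by
  rw [tendsto_subtype_rng]
  have h1 : Tendsto (fun n : ℕ => (t : ℝ) + 1 / 2 ^ n) atTop (𝓝 (t : ℝ)) := by
    simpa using (tendsto_const_nhds (x := (t : ℝ))).add li_tendsto_one_div_pow
  refine tendsto_of_tendsto_of_tendsto_of_le_of_le tendsto_const_nhds h1 ?_ ?_
  · intro n
    exact li_dy_le_ceil n t
  · intro n
    have := li_dy_ceil_sub_le n t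
    show _ ≤ (t : ℝ) + 1 / 2 ^ n
    linarith

theorem li_sum_double {M : Type*} [AddCommMonoid M] (f : ℕ → M) (N : ℕ) :
    ∑ j ∈ Finset.range (2 * N), f j = ∑ i ∈ Finset.range N, (f (2 * i) + f (2 * i + 1)) := by
  induction N with
  | zero => simp
  | succ N ih =>
    rw [Nat.mul_succ, Finset.sum_range_succ, Finset.sum_range_succ, ih, Finset.sum_range_succ,
      add_assoc]

end Claimed.Agent.R210.LI.Dy
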