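/-
Row 210 (S0432), layer LI, file Speed: finite dyadic energy ⟹ AC², and `∫ metricSpeed² ≤ li_energy`.
Architect: helper332.   Plan of the layer: header of LI/Ifc.lean.   (Bridge to layer CU: `li_energy = cu_energy'`.)
-/
import Claimed.Agent.R210.LI.Defs
import Claimed.Agent.R210.CU.Ifc

set_option autoImplicit false

open Claims.C0366 Claims.C0366.WeakHessian
open Set Filter MeasureTheory
open scoped ENNReal NNReal Topology

namespace Claimed.Agent.R210.LI.Speed

open Claimed.Agent.R210.Defs Claimed.Agent.R210.LI.Defs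
open Claimed.Agent.R210.CU.Defs Claimed.Agent.R210.CU.Ifc

variable {X : Type*} [MetricSpace X]

/-- the dyadic energies of LI and CU agree (definitionally). -/
theorem li_en_eq_cu (n : ℕ) (γ : Curve X) : li_en n γ = cu_dyen n γ := rfl

/-- `li_energy` is the Riesz energy of layer CU. -/
theorem li_energy_eq_cu (γ : Curve X) : li_energy γ = cu_energy' γ :=
  (cu_energy'_eq_dyadic γ).symm

/-- the frozen action is bounded by the dyadic energy. -/
theorem li_energy_speed (γ : Curve X) :
    ∫⁻ t in Set.Icc (0 : ℝ) 1, (metricSpeed γ t) ^ 2 ≤ li_energy γ := by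
  rw [li_energy_eq_cu]
  exact cu_energy_le_energy' γ

/-- finite dyadic energy implies the frozen `IsAC2`. -/
theorem li_ac2 (γ : Curve X) (h : li_energy γ < ∞) : IsAC2 γ := by
  rw [li_energy_eq_cu] at h
  exact cu_isAC2_of_energy' h

end Claimed.Agent.R210.LI.Speed
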