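/-
Row 210 (S0432), layer LI, file Cpt: Hölder bound and compactness of energy sublevels.      Architect: helper332.
(Bridge to layer CU: `Speed.li_energy_eq_cu`, `cu_edist_sq_le`, `cu_isCompact_energy`, `cu_lsc_energy'`.)
-/
import Claimed.Agent.R210.LI.Speed
import Claimed.Agent.R210.LI.Dy

set_option autoImplicit false

open Claims.C0366 Claims.C0366.WeakHessian
open Set Filter MeasureTheory
open scoped ENNReal NNReal Topology

namespace Claimed.Agent.R210.LI.Cpt

open Claimed.Agent.R210.LI.Defs Claimed.Agent.R210.LI.Dy Claimed.Agent.R210.LI.Speed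
open Claimed.Agent.R210.CU.Defs Claimed.Agent.R210.CU.Ifc

variable {X : Type*} [MetricSpace X]

theorem li_holder (γ : Curve X) (s t : Time) :
    edist (γ s) (γ t) ^ 2 ≤ ENNReal.ofReal |(s : ℝ) - (t : ℝ)| * li_energy γ := by
  rw [li_energy_eq_cu]
  have key : ∀ a b : Time, (a : ℝ) ≤ b →
      edist (γ a) (γ b) ^ 2 ≤ ENNReal.ofReal ((b : ℝ) - a) * cu_energy' γ := by
    intro a b hab
    have := cu_edist_sq_le γ hab
    simpa [evalReal, li_clamp_self] using this
  rcases le_total (s : ℝ) t with h | h
  · have := key s t h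
    rwa [abs_sub_comm, abs_of_nonneg (sub_nonneg.2 h)]
  · have := key t s h
    rwa [edist_comm, abs_of_nonneg (sub_nonneg.2 h)]

theorem li_energy_closed (c : ℝ≥0∞) : IsClosed {γ : Curve X | li_energy γ ≤ c} := by
  have : {γ : Curve X | li_energy γ ≤ c} = cu_energy' ⁻¹' Iic c := by
    ext γ
    simp [li_energy_eq_cu]
  rw [this]
  exact cu_lsc_energy'.isClosed_preimage c

theorem li_compact [ProperSpace X] {A : Set X} (hA : IsCompact A) (c : ℝ≥0) :
    IsCompact {γ : Curve X | γ timeZero ∈ A ∧ li_energy γ ≤ c} := by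
  have := cu_isCompact_energy (X := X) hA c
  simpa only [li_energy_eq_cu] using this

end Claimed.Agent.R210.LI.Cpt
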