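/-
Row 210 (S0432), layer LI, file Mono: elementary properties of the dyadic energies.      Architect: helper332.      Uses Dy.lean.
* `li_enR_nonneg`: `Finset.sum_nonneg`, `positivity`.
* `li_en_eq_ofReal`: `ENNReal.ofReal_sum_of_nonneg`, `ENNReal.ofReal_mul`, `ENNReal.ofReal_pow`, `edist_dist`, `ENNReal.ofReal_ofNat`.
* `li_enR_continuous`: `continuous_finset_sum`, `continuous_const.mul (((continuous_eval_const _).dist (continuous_eval_const _)).pow 2)`.
* `li_en_continuous`: `li_en_eq_ofReal`, `ENNReal.continuous_ofReal.comp`.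
* `li_enR_le_succ`: `pow_succ`, `Dy.li_sum_double` (`2^(n+1) = 2 * 2^n`), termwise: `a = dy n i = dy (n+1) (2i)`, `m = dy (n+1) (2i+1)`, `b = dy n (i+1) = dy (n+1) (2i+2) = dy (n+1) (2(i+1))` (`Dy.li_dy_double`);
   `d(a,b) ≤ d(a,m) + d(m,b)` and `(x+y)² ≤ 2x² + 2y²` (`nlinarith [sq_nonneg (x-y)]`):  `2^n d(a,b)² ≤ 2^(n+1) (d(a,m)² + d(m,b)²)`.
* `li_en_le_succ`: from `li_enR_le_succ`, `li_en_eq_ofReal`, `ENNReal.ofReal_le_ofReal`.
* `li_en_zero`: `Finset.range_one`/`Finset.sum_range_one`, `pow_zero`, `one_mul`, `Dy.li_dy_zero`, `Dy.li_dy_zero_one`.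
-/
import Claimed.Agent.R210.LI.Dy

set_option autoImplicit false

open Claims.C0366 Claims.C0366.WeakHessian
open Set Filter MeasureTheory
open scoped ENNReal NNReal Topology

namespace Claimed.Agent.R210.LI.Mono

open Claimed.Agent.R210.Defs Claimed.Agent.R210.LI.Defs Claimed.Agent.R210.LI.Dy

variable {X : Type*} [MetricSpace X]

theorem li_enR_nonneg (n : ℕ) (γ : Curve X) : 0 ≤ li_enR n γ := by
  unfold li_enR
  exact Finset.sum_nonneg fun i _ => by positivity

theorem li_en_eq_ofReal (n : ℕ) (γ : Curve X) : li_en n γ = ENNReal.ofReal (li_enR n γ) := by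
  unfold li_en li_enR
  rw [ENNReal.ofReal_sum_of_nonneg (fun i _ => by positivity)]
  refine Finset.sum_congr rfl fun i _ => ?_
  rw [ENNReal.ofReal_mul (by positivity), ENNReal.ofReal_pow (by norm_num), ENNReal.ofReal_pow dist_nonneg,
    edist_dist, ENNReal.ofReal_ofNat]

theorem li_enR_continuous (n : ℕ) : Continuous (fun γ : Curve X => li_enR n γ) := by
  unfold li_enR
  exact continuous_finsetSum _ fun i _ =>
    continuous_const.mul (((continuous_eval_const _).dist (continuous_eval_const _)).pow 2)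

theorem li_en_continuous (n : ℕ) : Continuous (fun γ : Curve X => li_en n γ) := by
  simp only [li_en_eq_ofReal]
  exact ENNReal.continuous_ofReal.comp (li_enR_continuous n)

/-- refinement increases the dyadic energy:  `d(a,c)² ≤ 2 d(a,b)² + 2 d(b,c)²`. -/
theorem li_enR_le_succ (n : ℕ) (γ : Curve X) : li_enR n γ ≤ li_enR (n + 1) γ := by
  unfold li_enR
  rw [show (2 : ℕ) ^ (n + 1) = 2 * 2 ^ n by ring, li_sum_double]
  refine Finset.sum_le_sum fun i _ => ?_
  have e1 : li_dy (n + 1) (2 * i) = li_dy n i := li_dy_double n i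
  have e2 : li_dy (n + 1) (2 * i + 1 + 1) = li_dy n (i + 1) := by
    rw [show 2 * i + 1 + 1 = 2 * (i + 1) by ring]
    exact li_dy_double n (i + 1)
  rw [e1, e2]
  have htri := dist_triangle (γ (li_dy n i)) (γ (li_dy (n + 1) (2 * i + 1))) (γ (li_dy n (i + 1)))
  have h0 := dist_nonneg (x := γ (li_dy n i)) (y := γ (li_dy n (i + 1)))
  set x := dist (γ (li_dy n i)) (γ (li_dy (n + 1) (2 * i + 1)))
  set y := dist (γ (li_dy (n + 1) (2 * i + 1))) (γ (li_dy n (i + 1)))
  set z := dist (γ (li_dy n i)) (γ (li_dy n (i + 1)))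
  have hz : z ^ 2 ≤ 2 * (x ^ 2 + y ^ 2) := by
    have : z ^ 2 ≤ (x + y) ^ 2 := pow_le_pow_left₀ h0 htri 2
    nlinarith [sq_nonneg (x - y)]
  have hp : (0 : ℝ) ≤ 2 ^ n := by positivity
  calc (2 : ℝ) ^ n * z ^ 2 ≤ 2 ^ n * (2 * (x ^ 2 + y ^ 2)) := mul_le_mul_of_nonneg_left hz hp
    _ = 2 ^ (n + 1) * x ^ 2 + 2 ^ (n + 1) * y ^ 2 := by ring

theorem li_en_le_succ (n : ℕ) (γ : Curve X) : li_en n γ ≤ li_en (n + 1) γ := by
  rw [li_en_eq_ofReal, li_en_eq_ofReal]
  exact ENNReal.ofReal_le_ofReal (li_enR_le_succ n γ)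

theorem li_en_mono (γ : Curve X) : Monotone (fun n => li_en n γ) :=
  monotone_nat_of_le_succ fun n => li_en_le_succ n γ

theorem li_en_le_energy (n : ℕ) (γ : Curve X) : li_en n γ ≤ li_energy γ :=
  le_iSup (fun n => li_en n γ) n

theorem li_energy_measurable : Measurable (fun γ : Curve X => li_energy γ) :=
  Measurable.iSup fun n => (li_en_continuous n).measurable

/-- monotone convergence. -/
theorem li_lintegral_energy (π : Measure (Curve X)) (B : ℝ≥0∞)
    (h : ∀ k : ℕ, ∫⁻ γ, li_en k γ ∂π ≤ B) : ∫⁻ γ, li_energy γ ∂π ≤ B := by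
  unfold li_energy
  rw [lintegral_iSup (fun n => (li_en_continuous n).measurable)
    (fun i j hij γ => li_en_mono γ hij)]
  exact iSup_le h

theorem li_en_zero (γ : Curve X) : li_en 0 γ = edist (γ timeZero) (γ timeOne) ^ 2 := by
  unfold li_en
  rw [pow_zero, Finset.sum_range_one, pow_zero, one_mul, li_dy_zero, zero_add, li_dy_zero_one]

end Claimed.Agent.R210.LI.Mono
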