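/-
Row 210 (S0432), layer LI, file AllTA: ingredients of "dyadic times ⟹ all times".      Architect: helper332.      Uses Cpt (`li_holder`), Mono.

* `li_meas_le_of_W2`, `li_meas_le_of_W2'`:  for every coupling `q` of `(μ, ν)`:  `μ F = q (Prod.fst ⁻¹' F)` (`Measure.map_apply measurable_fst hF.measurableSet`, `hq.1`),
   `Prod.fst ⁻¹' F ⊆ Prod.snd ⁻¹' (cthickening ε F) ∪ {p | ofReal ε ^ 2 ≤ edist p.1 p.2 ^ 2}`  (if `p.1 ∈ F` and `p.2 ∉ cthickening ε F` then `ε < infEdist p.2 F ≤ edist p.2 p.1`: `Metric.mem_cthickening_iff`, `Metric.infEdist_le_edist_of_mem`),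
   Markov: `q {ofReal ε^2 ≤ edist²} ≤ cost q / ofReal ε^2` (`meas_ge_le_lintegral_div`, measurability of `p ↦ edist p.1 p.2 ^ 2` needs `[SecondCountableTopology X]`: `continuous_edist.measurable.pow_const 2`; constants `≠ 0, ≠ ∞`).
   So `μ F ≤ ν (cthickening ε F) + cost q / c` for all couplings `q`; pass to the infimum: if `W2sq μ ν = ∞` trivial (`ENNReal.top_div_of_ne_top`), else for `η > 0` take `q` with `cost q < W2sq + η` (`iInf_lt_iff`), `ENNReal.le_of_forall_pos_le_add`-type;
   or `W2sq μ ν / c = ⨅ q, ⨅ _, cost q / c` (`ENNReal.iInf_div`..), `ENNReal.add_iInf`.     `cthickening ε F` is closed, so measurable (`Metric.isClosed_cthickening`).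
* `li_W2_eval_le`: `q := π.map (fun γ => (γ s, γ t))` is a coupling (`Measure.map_map`, `continuous_eval_const`), `W2sq ≤ cost q` (`iInf₂_le`), `cost q = ∫⁻ edist (γ s) (γ t)^2 dπ` (`lintegral_map`), `Cpt.li_holder`, `lintegral_const_mul` with `Mono.li_energy_measurable`.
* `li_eq_of_le_closed`: for open `G`: `ν G = 1 - ν Gᶜ ≤ 1 - μ Gᶜ = μ G` (`prob_compl_eq_one_sub`, `tsub_le_tsub_left`).  For closed `F`: `F = ⋂ n, thickening (1/(n+1)) F`, `ν F ≤ ν (thickening δ F) ≤ μ (thickening δ F) → μ F` (`tendsto_measure_thickening_of_isClosed`), so `ν F ≤ μ F`: equality on closed sets;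
   `MeasureTheory.ext_of_generate_finite` with the π-system of closed sets (`borel_eq_generateFrom_isClosed`, `isPiSystem_isClosed`), or `Measure.ext_of_isClosed`-type lemma if present (`MeasureTheory.ext_of_forall_isClosed`..).
-/
import Claimed.Agent.R210.LI.Cpt
import Claimed.Agent.R210.LI.Mono

set_option autoImplicit false

open Claims.C0366 Claims.C0366.WeakHessian
open Set Filter MeasureTheory
open scoped ENNReal NNReal Topology

namespace Claimed.Agent.R210.LI.AllTA

open Claimed.Agent.R210.Defs Claimed.Agent.R210.LI.Defs Claimed.Agent.R210.LI.Mono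
  Claimed.Agent.R210.LI.Cpt

variable {X : Type*} [MetricSpace X] [MeasurableSpace X] [BorelSpace X]

/-- one coupling. -/
theorem li_meas_le_of_coupling [SecondCountableTopology X] {μ ν : Measure X} {q : Measure (X × X)}
    (hq : IsCoupling q μ ν) {F : Set X} (hF : IsClosed F) {ε : ℝ} (hε : 0 < ε) :
    μ F ≤ ν (Metric.cthickening ε F) + QuadraticTransportCost q / ENNReal.ofReal (ε ^ 2) ∧
    ν F ≤ μ (Metric.cthickening ε F) + QuadraticTransportCost q / ENNReal.ofReal (ε ^ 2) := by
  have hc0 : ENNReal.ofReal (ε ^ 2) ≠ 0 := (ENNReal.ofReal_pos.2 (by positivity)).ne'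
  have hct : ENNReal.ofReal (ε ^ 2) ≠ ∞ := ENNReal.ofReal_ne_top
  have hmeas : Measurable (fun p : X × X => edist p.1 p.2 ^ 2) := continuous_edist.measurable.pow_const 2
  have hmark : q {p | ENNReal.ofReal (ε ^ 2) ≤ edist p.1 p.2 ^ 2}
      ≤ QuadraticTransportCost q / ENNReal.ofReal (ε ^ 2) :=
    meas_ge_le_lintegral_div hmeas.aemeasurable hc0 hct
  have hcl : MeasurableSet (Metric.cthickening ε F) := Metric.isClosed_cthickening.measurableSet
  have hfar : ∀ x y : X, x ∈ F → y ∉ Metric.cthickening ε F → ENNReal.ofReal (ε ^ 2) ≤ edist x y ^ 2 := by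
    intro x y hx hy
    rw [Metric.mem_cthickening_iff, not_le] at hy
    have h1 : ENNReal.ofReal ε ≤ edist x y := by
      rw [edist_comm]
      exact hy.le.trans (Metric.infEDist_le_edist_of_mem hx)
    rw [ENNReal.ofReal_pow hε.le]
    exact pow_le_pow_left' h1 2
  constructor
  · rw [← hq.1, ← hq.2, Measure.map_apply measurable_fst hF.measurableSet,
      Measure.map_apply measurable_snd hcl]
    have hsub : Prod.fst ⁻¹' F ⊆ Prod.snd ⁻¹' (Metric.cthickening ε F)
        ∪ {p : X × X | ENNReal.ofReal (ε ^ 2) ≤ edist p.1 p.2 ^ 2} := by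
      intro p hp
      by_cases h2 : p.2 ∈ Metric.cthickening ε F
      · exact Or.inl h2
      · exact Or.inr (hfar p.1 p.2 hp h2)
    exact (measure_mono hsub).trans ((measure_union_le _ _).trans (add_le_add le_rfl hmark))
  · rw [← hq.1, ← hq.2, Measure.map_apply measurable_snd hF.measurableSet,
      Measure.map_apply measurable_fst hcl]
    have hsub : Prod.snd ⁻¹' F ⊆ Prod.fst ⁻¹' (Metric.cthickening ε F)
        ∪ {p : X × X | ENNReal.ofReal (ε ^ 2) ≤ edist p.1 p.2 ^ 2} := by
      intro p hp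
      by_cases h2 : p.1 ∈ Metric.cthickening ε F
      · exact Or.inl h2
      · refine Or.inr ?_
        have := hfar p.2 p.1 hp h2
        rwa [edist_comm] at this
    exact (measure_mono hsub).trans ((measure_union_le _ _).trans (add_le_add le_rfl hmark))

/-- passage to the infimum. -/
theorem li_le_add_W2_div {μ ν : Measure X} {a b c : ℝ≥0∞} (hc0 : c ≠ 0) (hct : c ≠ ∞)
    (h : ∀ q : Measure (X × X), IsCoupling q μ ν → a ≤ b + QuadraticTransportCost q / c) :
    a ≤ b + W2sq μ ν / c := by
  by_cases htop : W2sq μ ν = ∞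
  · rw [htop, ENNReal.top_div_of_ne_top hct, add_top]
    exact le_top
  refine ENNReal.le_of_forall_pos_le_add fun η hη _ => ?_
  have hηc : (0 : ℝ≥0∞) < η * c := ENNReal.mul_pos (by exact_mod_cast hη.ne') hc0
  have hlt : W2sq μ ν < W2sq μ ν + η * c := ENNReal.lt_add_right htop hηc.ne'
  unfold W2sq at hlt
  obtain ⟨q, hq⟩ := iInf_lt_iff.1 hlt
  obtain ⟨hqc, hq2⟩ := iInf_lt_iff.1 hq
  refine (h q hqc).trans ?_
  have h3 : QuadraticTransportCost q / c ≤ W2sq μ ν / c + η := by
    have h4 : QuadraticTransportCost q / c ≤ (W2sq μ ν + η * c) / c := ENNReal.div_le_div_right hq2.le c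
    rw [ENNReal.add_div, ENNReal.mul_div_cancel_right hc0 hct] at h4
    exact h4
  calc b + QuadraticTransportCost q / c ≤ b + (W2sq μ ν / c + η) := add_le_add le_rfl h3
    _ = b + W2sq μ ν / c + η := by rw [add_assoc]

theorem li_meas_le_of_W2 [SecondCountableTopology X] (μ ν : Measure X) {F : Set X}
    (hF : IsClosed F) {ε : ℝ} (hε : 0 < ε) :
    μ F ≤ ν (Metric.cthickening ε F) + W2sq μ ν / ENNReal.ofReal (ε ^ 2) :=
  li_le_add_W2_div (ENNReal.ofReal_pos.2 (by positivity)).ne' ENNReal.ofReal_ne_top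
    (fun _ hq => (li_meas_le_of_coupling hq hF hε).1)

theorem li_meas_le_of_W2' [SecondCountableTopology X] (μ ν : Measure X) {F : Set X}
    (hF : IsClosed F) {ε : ℝ} (hε : 0 < ε) :
    ν F ≤ μ (Metric.cthickening ε F) + W2sq μ ν / ENNReal.ofReal (ε ^ 2) :=
  li_le_add_W2_div (ENNReal.ofReal_pos.2 (by positivity)).ne' ENNReal.ofReal_ne_top
    (fun _ hq => (li_meas_le_of_coupling hq hF hε).2)

theorem li_W2_eval_le [SecondCountableTopology X] (π : Measure (Curve X)) (s t : Time) :
    W2sq (π.map (fun γ : Curve X => γ s)) (π.map (fun γ : Curve X => γ t))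
      ≤ ENNReal.ofReal |(s : ℝ) - (t : ℝ)| * ∫⁻ γ, li_energy γ ∂π := by
  have hs : Measurable (fun γ : Curve X => γ s) := (continuous_eval_const s).measurable
  have ht : Measurable (fun γ : Curve X => γ t) := (continuous_eval_const t).measurable
  have hst : Measurable (fun γ : Curve X => (γ s, γ t)) := hs.prodMk ht
  have hq : IsCoupling (π.map (fun γ : Curve X => (γ s, γ t))) (π.map (fun γ : Curve X => γ s))
      (π.map (fun γ : Curve X => γ t)) := by
    constructor
    · rw [Measure.map_map measurable_fst hst]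
      rfl
    · rw [Measure.map_map measurable_snd hst]
      rfl
  have hmeas : Measurable (fun p : X × X => edist p.1 p.2 ^ 2) := continuous_edist.measurable.pow_const 2
  have h1 : W2sq (π.map (fun γ : Curve X => γ s)) (π.map (fun γ : Curve X => γ t))
      ≤ QuadraticTransportCost (π.map (fun γ : Curve X => (γ s, γ t))) := by
    unfold W2sq
    exact iInf₂_le (f := fun (q : Measure (X × X)) (_ : IsCoupling q (π.map (fun γ : Curve X => γ s))
      (π.map (fun γ : Curve X => γ t))) => QuadraticTransportCost q) _ hq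
  refine h1.trans ?_
  unfold QuadraticTransportCost
  rw [lintegral_map hmeas hst, ← lintegral_const_mul _ li_energy_measurable]
  exact lintegral_mono fun γ => li_holder γ s t

theorem li_eq_of_le_closed (μ ν : Measure X) (hμ : IsProbabilityMeasure μ)
    (hν : IsProbabilityMeasure ν) (h : ∀ F : Set X, IsClosed F → μ F ≤ ν F) : μ = ν := by
  have hopen : ∀ G : Set X, IsOpen G → ν G ≤ μ G := by
    intro G hG
    have h1 := h Gᶜ hG.isClosed_compl
    rw [prob_compl_eq_one_sub hG.measurableSet, prob_compl_eq_one_sub hG.measurableSet] at h1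
    have h2 : ν G ≤ 1 := prob_le_one
    exact (ENNReal.sub_le_sub_iff_left h2 ENNReal.one_ne_top).1 h1
  have hclosed : ∀ F : Set X, IsClosed F → ν F ≤ μ F := by
    intro F hF
    have hlim : Tendsto (fun r => μ (Metric.thickening r F)) (𝓝[>] 0) (𝓝 (μ F)) :=
      tendsto_measure_thickening_of_isClosed ⟨1, one_pos, measure_ne_top _ _⟩ hF
    refine ge_of_tendsto hlim ?_
    filter_upwards [self_mem_nhdsWithin] with r hr
    exact (measure_mono (Metric.self_subset_thickening hr F)).trans (hopen _ Metric.isOpen_thickening)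
  refine ext_of_generate_finite _ (BorelSpace.measurable_eq.trans borel_eq_generateFrom_isClosed)
    isPiSystem_isClosed (fun F hF => le_antisymm (h F hF) (hclosed F hF)) ?_
  rw [measure_univ, measure_univ]

end Claimed.Agent.R210.LI.AllTA
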