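/-
Row 210 (S0432), layer LI, file AllT: from the dyadic times to all times.
Architect: helper332.   Plan of the layer: header of LI/Ifc.lean.   (Assembled from AllTA.lean and Dy.lean.)
-/
import Claimed.Agent.R210.LI.AllTA

set_option autoImplicit false

open Claims.C0366 Claims.C0366.WeakHessian
open Set Filter MeasureTheory
open scoped ENNReal NNReal Topology

namespace Claimed.Agent.R210.LI.AllT

open Claimed.Agent.R210.Defs Claimed.Agent.R210.LI.Defs Claimed.Agent.R210.LI.AllTA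
  Claimed.Agent.R210.LI.Dy

variable {X : Type*} [MetricSpace X] [MeasurableSpace X] [BorelSpace X]

/-- If `π` has the marginals `μ` at the dyadic times, finite energy, and `μ` is `W₂`-continuous from the left along the
dyadic approximations `⌊t 2^n⌋ / 2^n` of `t`, then `π` has the marginals `μ` at all times. -/
theorem li_all_times [ProperSpace X] (μ : Time → Measure X) (hμ : ∀ t, IsProbabilityMeasure (μ t))
    (π : Measure (Curve X)) (hπ : IsProbabilityMeasure π)
    (hdy : ∀ n i : ℕ, Measure.map (fun γ : Curve X => γ (li_dy n i)) π = μ (li_dy n i))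
    (hE : ∫⁻ γ, li_energy γ ∂π < ∞)
    (hcont : ∀ t : Time,
      Tendsto (fun n : ℕ => W2sq (μ (li_dy n ⌊(t : ℝ) * 2 ^ n⌋₊)) (μ t)) atTop (𝓝 0)) :
    ∀ t : Time, Measure.map (fun γ : Curve X => γ t) π = μ t := by
  intro t
  have hνt : IsProbabilityMeasure (π.map (fun γ : Curve X => γ t)) :=
    Measure.isProbabilityMeasure_map (continuous_eval_const t).measurable.aemeasurable
  symm
  apply li_eq_of_le_closed (μ t) (π.map (fun γ : Curve X => γ t)) (hμ t) hνt
  intro F hF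
  have key : ∀ ε : ℝ, 0 < ε →
      μ t F ≤ (π.map (fun γ : Curve X => γ t)) (Metric.cthickening (ε + ε) F) := by
    intro ε hε
    have hc0 : ENNReal.ofReal (ε ^ 2) ≠ 0 := by
      simp only [ne_eq, ENNReal.ofReal_eq_zero, not_le]; positivity
    have h1 : ∀ n : ℕ, μ t F ≤ (π.map (fun γ : Curve X => γ t)) (Metric.cthickening (ε + ε) F)
        + (ENNReal.ofReal |((li_dy n ⌊(t : ℝ) * 2 ^ n⌋₊ : Time) : ℝ) - (t : ℝ)|
            * (∫⁻ γ, li_energy γ ∂π) / ENNReal.ofReal (ε ^ 2)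
          + W2sq (μ (li_dy n ⌊(t : ℝ) * 2 ^ n⌋₊)) (μ t) / ENNReal.ofReal (ε ^ 2)) := by
      intro n
      have a1 := li_meas_le_of_W2' (μ (li_dy n ⌊(t : ℝ) * 2 ^ n⌋₊)) (μ t) hF hε
      rw [← hdy n ⌊(t : ℝ) * 2 ^ n⌋₊] at a1
      have a2 := li_meas_le_of_W2 (π.map (fun γ : Curve X => γ (li_dy n ⌊(t : ℝ) * 2 ^ n⌋₊)))
        (π.map (fun γ : Curve X => γ t)) (Metric.isClosed_cthickening (δ := ε) (E := F)) hε
      have a3 := li_W2_eval_le π (li_dy n ⌊(t : ℝ) * 2 ^ n⌋₊) t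
      have a4 : (π.map (fun γ : Curve X => γ t)) (Metric.cthickening ε (Metric.cthickening ε F))
          ≤ (π.map (fun γ : Curve X => γ t)) (Metric.cthickening (ε + ε) F) :=
        measure_mono (Metric.cthickening_cthickening_subset hε.le hε.le F)
      rw [hdy n ⌊(t : ℝ) * 2 ^ n⌋₊] at a1 a2 a3
      calc μ t F ≤ _ := a1
        _ ≤ ((π.map (fun γ : Curve X => γ t)) (Metric.cthickening (ε + ε) F)
            + ENNReal.ofReal |((li_dy n ⌊(t : ℝ) * 2 ^ n⌋₊ : Time) : ℝ) - (t : ℝ)|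
              * (∫⁻ γ, li_energy γ ∂π) / ENNReal.ofReal (ε ^ 2))
            + W2sq (μ (li_dy n ⌊(t : ℝ) * 2 ^ n⌋₊)) (μ t) / ENNReal.ofReal (ε ^ 2) := by
          refine add_le_add (a2.trans (add_le_add a4 ?_)) le_rfl
          exact ENNReal.div_le_div_right a3 _
        _ = _ := by rw [add_assoc]
    have h2 : Tendsto (fun n : ℕ =>
        ENNReal.ofReal |((li_dy n ⌊(t : ℝ) * 2 ^ n⌋₊ : Time) : ℝ) - (t : ℝ)|) atTop (𝓝 0) := by
      have b1 : Tendsto (fun n : ℕ => ((li_dy n ⌊(t : ℝ) * 2 ^ n⌋₊ : Time) : ℝ)) atTop (𝓝 (t : ℝ)) :=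
        (continuous_subtype_val.tendsto t).comp (li_dy_floor_tendsto t)
      have b2 : Tendsto (fun n : ℕ => |((li_dy n ⌊(t : ℝ) * 2 ^ n⌋₊ : Time) : ℝ) - (t : ℝ)|)
          atTop (𝓝 0) := by
        have := (b1.sub_const (t : ℝ)).abs
        simpa using this
      have := ENNReal.tendsto_ofReal b2
      simpa using this
    have h3 : Tendsto (fun n : ℕ =>
        (π.map (fun γ : Curve X => γ t)) (Metric.cthickening (ε + ε) F)
        + (ENNReal.ofReal |((li_dy n ⌊(t : ℝ) * 2 ^ n⌋₊ : Time) : ℝ) - (t : ℝ)|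
            * (∫⁻ γ, li_energy γ ∂π) / ENNReal.ofReal (ε ^ 2)
          + W2sq (μ (li_dy n ⌊(t : ℝ) * 2 ^ n⌋₊)) (μ t) / ENNReal.ofReal (ε ^ 2))) atTop
        (𝓝 ((π.map (fun γ : Curve X => γ t)) (Metric.cthickening (ε + ε) F) + (0 + 0))) := by
      refine Tendsto.const_add _ (Tendsto.add ?_ ?_)
      · have c1 := ENNReal.Tendsto.mul_const h2 (Or.inr hE.ne)
        have c2 := ENNReal.Tendsto.div_const c1 (Or.inr hc0)
        simpa using c2
      · have c2 := ENNReal.Tendsto.div_const (hcont t) (Or.inr hc0)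
        simpa using c2
    simp only [add_zero] at h3
    exact ge_of_tendsto' h3 h1
  have h4 : Tendsto (fun r : ℝ => (π.map (fun γ : Curve X => γ t)) (Metric.cthickening r F)) (𝓝 0)
      (𝓝 ((π.map (fun γ : Curve X => γ t)) F)) :=
    tendsto_measure_cthickening_of_isClosed ⟨1, one_pos, measure_ne_top _ _⟩ hF
  have h5 : Tendsto (fun ε : ℝ => ε + ε) (𝓝[>] 0) (𝓝 0) := by
    have : Tendsto (fun ε : ℝ => ε + ε) (𝓝 0) (𝓝 (0 + 0)) := tendsto_id.add tendsto_id
    simpa using this.mono_left nhdsWithin_le_nhds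
  refine ge_of_tendsto (h4.comp h5) ?_
  filter_upwards [self_mem_nhdsWithin] with ε hε
  exact key ε hε

end Claimed.Agent.R210.LI.AllT
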