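/-
Row 210 (S0432), layer LI, file Glue: the gluing lemma (pure measure theory, Mathlib only).      Architect: helper332.

`li_glue`:  `α` on `A`, `β` on `B` (standard Borel), `f : A → Z`, `g : B → Z` with `f_# α = g_# β`  ⟹  `P` on `A × B` with marginals `α, β` and `f a = g b` `P`-a.e.
PROOF.  `ρ := β.map (fun b => (g b, b)) : Measure (Z × B)` (probability), `κ := ρ.condKernel : Kernel Z B` (Markov), `ρ.fst ⊗ₘ κ = ρ` (`Measure.disintegrate` / `Measure.compProd_fst_condKernel`),
 `ρ.fst = β.map g = α.map f`, `ρ.snd = β` (`Measure.fst, Measure.snd, Measure.map_map`).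
 `P := α ⊗ₘ (κ.comap f hf)`.     `P.map Prod.fst = α`: `Measure.fst_compProd`.
 For measurable `S ⊆ Z × B` put `S' = {(a,b) | (f a, b) ∈ S}`:  `P S' = ∫⁻ a, κ (f a) {b | (f a, b) ∈ S} ∂α = ∫⁻ z, κ z {b | (z,b) ∈ S} ∂(α.map f) = (ρ.fst ⊗ₘ κ) S = ρ S`
 (`Measure.compProd_apply`, `Kernel.comap_apply`, `lintegral_map` with `Kernel.measurable_kernel_prodMk_left`).      I.e.  `P.map (fun p => (f p.1, p.2)) = ρ`.
 Second marginal: `S = univ ×ˢ T`.      A.e. statement: `S = {(z,b) | z ≠ g b}`, measurable since the diagonal of `Z` is closed (`isClosed_diagonal`, `Z × Z` Borel as `Z` is second countable;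
 or `measurableSet_eq_fun`), and `ρ S = β {b | g b ≠ g b} = 0`.
-/
import Mathlib

set_option autoImplicit false

open Set Filter MeasureTheory ProbabilityTheory
open scoped ENNReal NNReal Topology

namespace Claimed.Agent.R210.LI.Glue

theorem li_glue {A B Z : Type*} [MeasurableSpace A] [MeasurableSpace B] [StandardBorelSpace B]
    [Nonempty B] [TopologicalSpace Z] [T2Space Z] [SecondCountableTopology Z] [MeasurableSpace Z]
    [BorelSpace Z] (α : Measure A) (β : Measure B) (hα : IsProbabilityMeasure α)
    (hβ : IsProbabilityMeasure β) (f : A → Z) (g : B → Z) (hf : Measurable f) (hg : Measurable g)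
    (h : α.map f = β.map g) :
    ∃ P : Measure (A × B), IsProbabilityMeasure P ∧ P.map Prod.fst = α ∧ P.map Prod.snd = β ∧
      ∀ᵐ p ∂P, f p.1 = g p.2 := by
  have hgm : Measurable (fun b => (g b, b)) := hg.prodMk measurable_id
  set ρ : Measure (Z × B) := β.map (fun b => (g b, b)) with hρ
  have : IsProbabilityMeasure ρ := Measure.isProbabilityMeasure_map hgm.aemeasurable
  set κ : Kernel Z B := ρ.condKernel with hκ
  have hdis : ρ.fst ⊗ₘ κ = ρ := ρ.disintegrate κ
  have hfst : ρ.fst = α.map f := by
    rw [h, Measure.fst, hρ, Measure.map_map measurable_fst hgm]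
    rfl
  have hsnd : ρ.snd = β := by
    rw [Measure.snd, hρ, Measure.map_map measurable_snd hgm]
    exact Measure.map_id
  set P : Measure (A × B) := α ⊗ₘ (κ.comap f hf) with hP
  have hFm : Measurable (fun p : A × B => (f p.1, p.2)) := (hf.comp measurable_fst).prodMk measurable_snd
  have hmap : P.map (fun p : A × B => (f p.1, p.2)) = ρ := by
    ext S hS
    rw [Measure.map_apply hFm hS, hP, Measure.compProd_apply (hFm hS), ← hdis,
      Measure.compProd_apply hS, hfst, lintegral_map (Kernel.measurable_kernel_prodMk_left hS) hf]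
    rfl
  refine ⟨P, inferInstance, ?_, ?_, ?_⟩
  · exact Measure.fst_compProd α _
  · have : P.map Prod.snd = (P.map (fun p : A × B => (f p.1, p.2))).map Prod.snd := by
      rw [Measure.map_map measurable_snd hFm]
      rfl
    rw [this, hmap]
    exact hsnd
  · have hS : MeasurableSet {q : Z × B | q.1 = g q.2} :=
      measurableSet_eq_fun measurable_fst (hg.comp measurable_snd)
    have h1 : ∀ᵐ q ∂ρ, q.1 = g q.2 := by
      rw [hρ, ae_map_iff hgm.aemeasurable hS]
      exact Eventually.of_forall fun _ => rfl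
    rw [← hmap, ae_map_iff hFm.aemeasurable hS] at h1
    exact h1

end Claimed.Agent.R210.LI.Glue
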