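/-
Row 210 (S0432), layer LI, file Chain: a chain of couplings is realised on `ℕ → X`.      Architect: helper332.

`li_chain_aux` by induction on `N`.   `N = 0`: `Λ = (ν 0).map (fun x _ => x)` (`measurable_pi_iff`, `Measure.map_map`, `isProbabilityMeasure_map`).
 Step: `Λ` for `N`; `Glue.li_glue Λ (q N) _ _ (fun w => w N) Prod.fst (measurable_pi_apply N) measurable_fst` (hypothesis: `Λ.map (· N) = ν N = (q N).map Prod.fst`, `(hq N).1`)
 gives `P` on `(ℕ → X) × (X × X)`;   `Λ' := P.map U`, `U p := Function.update p.1 (N+1) p.2.2`  (measurable: `measurable_pi_iff`, case `i = N+1` or not; or `Measurable.update`-type lemma `measurable_update'`).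
 * `i < N`: `(U p) i = p.1 i`, `(U p) (i+1) = p.1 (i+1)` (`Function.update_of_ne`), so the pair law is that of `Λ` (`Measure.map_map`, `P.map Prod.fst = Λ`).
 * `i = N`: `((U p) N, (U p) (N+1)) = (p.1 N, p.2.2) = (p.2.1, p.2.2) = p.2` `P`-a.e. (`Measure.map_congr`), law `P.map Prod.snd = q N`.
 * `Λ'.map (· (N+1)) = (q N).map Prod.snd = ν (N+1)`.
 `Nonempty (X × X)`: `(hq' : IsProbabilityMeasure (q N)).nonempty`-type (`nonempty_of_isProbabilityMeasure`); `q i` is a probability measure because its first marginal is one
 (`(q i) univ = (q i).map Prod.fst univ`).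
-/
import Claimed.Agent.R210.LI.Defs
import Claimed.Agent.R210.LI.Glue

set_option autoImplicit false

open Claims.C0366 Claims.C0366.WeakHessian
open Set Filter MeasureTheory
open scoped ENNReal NNReal Topology

namespace Claimed.Agent.R210.LI.Chain

open Claimed.Agent.R210.LI.Defs Claimed.Agent.R210.LI.Glue

variable {X : Type*} [MetricSpace X] [MeasurableSpace X] [BorelSpace X]

theorem li_coupling_prob {q : Measure (X × X)} {μ ν : Measure X} (hμ : IsProbabilityMeasure μ)
    (hq : IsCoupling q μ ν) : IsProbabilityMeasure q := by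
  constructor
  have h1 : (Measure.map Prod.fst q) Set.univ = 1 := by
    rw [hq.1]
    exact hμ.measure_univ
  rwa [Measure.map_apply measurable_fst MeasurableSet.univ, Set.preimage_univ] at h1

theorem li_chain_aux [ProperSpace X] (ν : ℕ → Measure X) (hν : ∀ i, IsProbabilityMeasure (ν i))
    (q : ℕ → Measure (X × X)) (hq : ∀ i, IsCoupling (q i) (ν i) (ν (i + 1))) (N : ℕ) :
    ∃ Λ : Measure (ℕ → X), IsProbabilityMeasure Λ ∧ Λ.map (fun w => w N) = ν N ∧
      ∀ i < N, Λ.map (fun w => (w i, w (i + 1))) = q i := by
  induction N with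
  | zero =>
    have hm : Measurable (fun (x : X) (_ : ℕ) => x) := measurable_pi_iff.2 fun _ => measurable_id
    refine ⟨(ν 0).map (fun x _ => x), ?_, ?_, ?_⟩
    · haveI := hν 0
      exact Measure.isProbabilityMeasure_map hm.aemeasurable
    · rw [Measure.map_map (measurable_pi_apply 0) hm]
      exact Measure.map_id
    · intro i hi
      exact absurd hi (Nat.not_lt_zero i)
  | succ N ih =>
    obtain ⟨Λ, hΛ, hN, hlt⟩ := ih
    have hqp : IsProbabilityMeasure (q N) := li_coupling_prob (hν N) (hq N)
    haveI : Nonempty (X × X) := nonempty_of_isProbabilityMeasure (q N)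
    obtain ⟨P, hP, hP1, hP2, hae⟩ := li_glue Λ (q N) hΛ hqp (fun w => w N) Prod.fst
      (measurable_pi_apply N) measurable_fst (by rw [hN, (hq N).1])
    set U : (ℕ → X) × (X × X) → (ℕ → X) := fun p => Function.update p.1 (N + 1) p.2.2 with hU
    have hUm : Measurable U := by
      refine measurable_pi_iff.2 fun i => ?_
      by_cases hi : i = N + 1
      · subst hi
        have : (fun p : (ℕ → X) × (X × X) => U p (N + 1)) = fun p => p.2.2 := by
          funext p
          simp [U]
        rw [this]
        exact measurable_snd.snd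
      · have : (fun p : (ℕ → X) × (X × X) => U p i) = fun p => p.1 i := by
          funext p
          simp [U, Function.update_of_ne hi]
        rw [this]
        exact (measurable_pi_apply i).comp measurable_fst
    refine ⟨P.map U, Measure.isProbabilityMeasure_map hUm.aemeasurable, ?_, ?_⟩
    · rw [Measure.map_map (measurable_pi_apply _) hUm]
      have : (fun w : ℕ → X => w (N + 1)) ∘ U = Prod.snd ∘ Prod.snd := by
        funext p
        simp [U]
      rw [this, ← Measure.map_map measurable_snd measurable_snd, hP2, (hq N).2]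
    · intro i hi
      have hm : Measurable (fun w : ℕ → X => (w i, w (i + 1))) :=
        (measurable_pi_apply i).prodMk (measurable_pi_apply (i + 1))
      rw [Measure.map_map hm hUm]
      rcases Nat.lt_succ_iff_lt_or_eq.1 hi with h | h
      · have h1 : i ≠ N + 1 := by omega
        have h2 : i + 1 ≠ N + 1 := by omega
        have : (fun w : ℕ → X => (w i, w (i + 1))) ∘ U
            = (fun w : ℕ → X => (w i, w (i + 1))) ∘ Prod.fst := by
          funext p
          simp [U, Function.update_of_ne h1, Function.update_of_ne h2]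
        rw [this, ← Measure.map_map hm measurable_fst, hP1, hlt i h]
      · subst h
        have h1 : i ≠ i + 1 := by omega
        have : (fun w : ℕ → X => (w i, w (i + 1))) ∘ U =ᵐ[P] Prod.snd := by
          filter_upwards [hae] with p hp
          have hp' : p.1 i = p.2.1 := hp
          show (U p i, U p (i + 1)) = p.2
          simp [U, Function.update_of_ne h1, hp']
        rw [Measure.map_congr this, hP2]

theorem li_chain [ProperSpace X] (ν : ℕ → Measure X) (hν : ∀ i, IsProbabilityMeasure (ν i))
    (q : ℕ → Measure (X × X)) (hq : ∀ i, IsCoupling (q i) (ν i) (ν (i + 1))) (N : ℕ) :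
    ∃ Λ : Measure (ℕ → X), IsProbabilityMeasure Λ ∧
      ∀ i < N, Λ.map (fun w => (w i, w (i + 1))) = q i := by
  obtain ⟨Λ, h1, _, h3⟩ := li_chain_aux ν hν q hq N
  exact ⟨Λ, h1, h3⟩

end Claimed.Agent.R210.LI.Chain
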