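/-
Row 210 (S0432), layer LI, file Geo: geodesics and dyadic energies.      Architect: helper332.      Uses Dy.lean, Mono.lean.       `D := dist (γ timeZero) (γ timeOne)`.
* `li_pg_zero`: unfold `li_PG`, `IsGeodesic`; `2^0 = 1`, only `i = 0`; `Dy.li_dy_zero`, `Dy.li_dy_zero_one`; the four side conditions are `s.2.1, s.2.2, t.2.1, t.2.2` (`timeZero`, `timeOne` have values `0`, `1`).
* `li_dist_le_sum`: induction on `j` (`Nat.le_induction`), `dist_triangle`, `Finset.sum_Ico_succ_top`.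
* `li_geo_level`: `d i := dist (γ (dy k i)) (γ (dy k (i+1)))`.  `D ≤ Σ_{i<2^k} d i` (`li_dist_le_sum` with `i = 0`, `j = 2^k`, `Dy.li_dy_zero`, `Dy.li_dy_top`), `2^k Σ d i² = li_enR k γ ≤ D²` (`Finset.mul_sum`).
   `Σ (d i - D/2^k)² = Σ d i² - 2 (D/2^k) Σ d i + 2^k (D/2^k)² ≤ D²/2^k - 2D²/2^k + D²/2^k = 0`; `Finset.sum_eq_zero_iff_of_nonneg`; `pow_eq_zero_iff`.
* `li_geo_dyadic`: `≤`: `li_dist_le_sum` + `li_geo_level` (`Finset.sum_const`, `Nat.card_Ico`).   `≥`: `D ≤ d(dy 0, dy i) + d(dy i, dy j) + d(dy j, dy 2^k) ≤ i D/2^k + d(dy i, dy j) + (2^k - j) D/2^k`.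
* `li_geodesic_of_en`: hypotheses in real form: `li_enR k γ ≤ D²` (`Mono.li_en_eq_ofReal`, `Mono.li_en_zero`, `edist_dist`, `ENNReal.ofReal_le_ofReal_iff`).   For `s t : Time`, `s_n := dy n ⌊s 2^n⌋₊`, `t_n := dy n ⌊t 2^n⌋₊`:
   `dist (γ s_n) (γ t_n) = |s_n - t_n| D` (`li_geo_dyadic`, `le_total` on the two floors, `Dy.li_dy_coe` [floors are `≤ 2^n`], `dist_comm`, `abs_sub_comm`); limit `n → ∞` (`Dy.li_dy_floor_tendsto`, `γ.continuous`, `tendsto_nhds_unique`).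
-/
import Claimed.Agent.R210.LI.Mono

set_option autoImplicit false

open Claims.C0366 Claims.C0366.WeakHessian
open Set Filter MeasureTheory
open scoped ENNReal NNReal Topology

namespace Claimed.Agent.R210.LI.Geo

open Claimed.Agent.R210.Defs Claimed.Agent.R210.LI.Defs Claimed.Agent.R210.LI.Dy
  Claimed.Agent.R210.LI.Mono

variable {X : Type*} [MetricSpace X]

/-- level `0` piecewise geodesics are the frozen geodesics. -/
theorem li_pg_zero (γ : Curve X) : γ ∈ li_PG 0 ↔ IsGeodesic γ := by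
  constructor
  · intro h s t
    have h0 := h 0 (by norm_num) s t
    rw [zero_add, li_dy_zero, li_dy_zero_one] at h0
    have h1 := h0 s.2.1 s.2.2 t.2.1 t.2.2
    rw [h1]
    ring
  · intro h i hi s t _ _ _ _
    have hi0 : i = 0 := by simpa using hi
    subst hi0
    rw [zero_add, li_dy_zero, li_dy_zero_one, h s t]
    ring

theorem li_dist_le_sum (γ : Curve X) (k : ℕ) {i j : ℕ} (hij : i ≤ j) :
    dist (γ (li_dy k i)) (γ (li_dy k j))
      ≤ ∑ l ∈ Finset.Ico i j, dist (γ (li_dy k l)) (γ (li_dy k (l + 1))) := by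
  induction j, hij using Nat.le_induction with
  | base => simp
  | succ j hij ih =>
    rw [Finset.sum_Ico_succ_top hij]
    have := dist_triangle (γ (li_dy k i)) (γ (li_dy k j)) (γ (li_dy k (j + 1)))
    linarith

theorem li_geo_level (γ : Curve X) (k : ℕ)
    (h : li_enR k γ ≤ dist (γ timeZero) (γ timeOne) ^ 2) {i : ℕ} (hi : i < 2 ^ k) :
    dist (γ (li_dy k i)) (γ (li_dy k (i + 1))) = dist (γ timeZero) (γ timeOne) / 2 ^ k := by
  set D : ℝ := dist (γ timeZero) (γ timeOne) with hD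
  set d : ℕ → ℝ := fun i => dist (γ (li_dy k i)) (γ (li_dy k (i + 1))) with hd
  set P : ℝ := (2 : ℝ) ^ k with hP
  have hP0 : 0 < P := by positivity
  have hD0 : 0 ≤ D := dist_nonneg
  have h1 : D ≤ ∑ i ∈ Finset.range (2 ^ k), d i := by
    have := li_dist_le_sum γ k (Nat.zero_le (2 ^ k))
    rw [li_dy_zero, li_dy_top le_rfl, ← Finset.range_eq_Ico] at this
    exact this
  have h2 : P * ∑ i ∈ Finset.range (2 ^ k), d i ^ 2 ≤ D ^ 2 := by
    rw [Finset.mul_sum]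
    exact h
  have h3 : ∑ i ∈ Finset.range (2 ^ k), (d i - D / P) ^ 2 =
      ∑ i ∈ Finset.range (2 ^ k), d i ^ 2 - 2 * (D / P) * ∑ i ∈ Finset.range (2 ^ k), d i
        + P * (D / P) ^ 2 := by
    have e : ∀ i ∈ Finset.range (2 ^ k), (d i - D / P) ^ 2 =
        d i ^ 2 - 2 * (D / P) * d i + (D / P) ^ 2 := fun i _ => by ring
    rw [Finset.sum_congr rfl e, Finset.sum_add_distrib, Finset.sum_sub_distrib, ← Finset.mul_sum,
      Finset.sum_const, Finset.card_range, nsmul_eq_mul]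
    push_cast
    rfl
  have h4 : ∑ i ∈ Finset.range (2 ^ k), d i ^ 2 ≤ D ^ 2 / P := by
    rw [le_div_iff₀ hP0]
    linarith
  have h5 : D / P * D ≤ D / P * ∑ i ∈ Finset.range (2 ^ k), d i :=
    mul_le_mul_of_nonneg_left h1 (by positivity)
  have h6 : P * (D / P) ^ 2 = D ^ 2 / P := by
    field_simp
  have h7 : D / P * D = D ^ 2 / P := by
    ring
  have h8 : ∑ i ∈ Finset.range (2 ^ k), (d i - D / P) ^ 2 ≤ 0 := by
    rw [h3, h6]
    rw [h7] at h5
    linarith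
  have h9 : ∑ i ∈ Finset.range (2 ^ k), (d i - D / P) ^ 2 = 0 :=
    le_antisymm h8 (Finset.sum_nonneg (fun _ _ => sq_nonneg _))
  have h10 := (Finset.sum_eq_zero_iff_of_nonneg (fun _ _ => sq_nonneg _)).mp h9 i
    (Finset.mem_range.mpr hi)
  have h11 : d i - D / P = 0 := by
    exact pow_eq_zero_iff (two_ne_zero) |>.mp h10
  show d i = D / P
  linarith

theorem li_geo_dyadic (γ : Curve X) (k : ℕ)
    (h : li_enR k γ ≤ dist (γ timeZero) (γ timeOne) ^ 2) {i j : ℕ} (hij : i ≤ j) (hj : j ≤ 2 ^ k) :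
    dist (γ (li_dy k i)) (γ (li_dy k j))
      = (((j : ℝ) - i) / 2 ^ k) * dist (γ timeZero) (γ timeOne) := by
  set D : ℝ := dist (γ timeZero) (γ timeOne) with hD
  set P : ℝ := (2 : ℝ) ^ k with hP
  have hP0 : 0 < P := by positivity
  have ub : ∀ i j : ℕ, i ≤ j → j ≤ 2 ^ k →
      dist (γ (li_dy k i)) (γ (li_dy k j)) ≤ (((j : ℝ) - i) / P) * D := by
    intro i j hij hj
    have h1 := li_dist_le_sum γ k hij
    have h2 : ∑ l ∈ Finset.Ico i j, dist (γ (li_dy k l)) (γ (li_dy k (l + 1))) =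
        ∑ _l ∈ Finset.Ico i j, D / P := by
      refine Finset.sum_congr rfl (fun l hl => ?_)
      exact li_geo_level γ k h (lt_of_lt_of_le (Finset.mem_Ico.mp hl).2 hj)
    rw [h2, Finset.sum_const, Nat.card_Ico, nsmul_eq_mul, Nat.cast_sub hij] at h1
    calc dist (γ (li_dy k i)) (γ (li_dy k j)) ≤ ((j : ℝ) - i) * (D / P) := h1
      _ = (((j : ℝ) - i) / P) * D := by ring
  refine le_antisymm (ub i j hij hj) ?_
  have u1 := ub 0 i (Nat.zero_le i) (hij.trans hj)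
  have u2 := ub j (2 ^ k) hj le_rfl
  rw [li_dy_zero] at u1
  rw [li_dy_top le_rfl] at u2
  have t1 := dist_triangle (γ timeZero) (γ (li_dy k i)) (γ timeOne)
  have t2 := dist_triangle (γ (li_dy k i)) (γ (li_dy k j)) (γ timeOne)
  have e1 : (((2 ^ k : ℕ) : ℝ) - j) / P * D = D - (j : ℝ) / P * D := by
    push_cast
    rw [← hP]
    field_simp
  have e2 : (((i : ℝ) - (0 : ℕ)) / P) * D = (i : ℝ) / P * D := by
    push_cast
    ring
  have e3 : (((j : ℝ) - i) / P) * D = (j : ℝ) / P * D - (i : ℝ) / P * D := by ring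
  rw [e1] at u2
  rw [e2] at u1
  rw [e3]
  linarith

/-- equality case: if no dyadic energy exceeds `d(γ 0, γ 1)²` then `γ` is a geodesic. -/
theorem li_geodesic_of_en (γ : Curve X) (h : ∀ k : ℕ, li_en k γ ≤ li_en 0 γ) : IsGeodesic γ := by
  set D : ℝ := dist (γ timeZero) (γ timeOne) with hD
  have hreal : ∀ k : ℕ, li_enR k γ ≤ D ^ 2 := by
    intro k
    have h1 := h k
    rw [li_en_eq_ofReal k, li_en_zero, edist_dist, ← ENNReal.ofReal_pow dist_nonneg] at h1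
    exact (ENNReal.ofReal_le_ofReal_iff (sq_nonneg _)).mp h1
  intro s t
  have hfl : ∀ (u : Time) (n : ℕ), ⌊(u : ℝ) * 2 ^ n⌋₊ ≤ 2 ^ n := by
    intro u n
    refine Nat.floor_le_of_le ?_
    push_cast
    calc (u : ℝ) * 2 ^ n ≤ 1 * 2 ^ n := mul_le_mul_of_nonneg_right u.2.2 (by positivity)
      _ = 2 ^ n := one_mul _
  have key : ∀ n : ℕ, dist (γ (li_dy n ⌊(s : ℝ) * 2 ^ n⌋₊)) (γ (li_dy n ⌊(t : ℝ) * 2 ^ n⌋₊)) =
      |((li_dy n ⌊(s : ℝ) * 2 ^ n⌋₊ : Time) : ℝ) - (li_dy n ⌊(t : ℝ) * 2 ^ n⌋₊ : Time)| * D := by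
    intro n
    have aux : ∀ i j : ℕ, i ≤ j → j ≤ 2 ^ n → dist (γ (li_dy n i)) (γ (li_dy n j)) =
        |((li_dy n i : Time) : ℝ) - (li_dy n j : Time)| * D := by
      intro i j hij hj
      rw [li_geo_dyadic γ n (hreal n) hij hj, li_dy_coe (hij.trans hj), li_dy_coe hj]
      have hle : (i : ℝ) ≤ j := Nat.cast_le.mpr hij
      have e : |(i : ℝ) / 2 ^ n - (j : ℝ) / 2 ^ n| = ((j : ℝ) - i) / 2 ^ n := by
        rw [← sub_div, abs_div, abs_of_nonpos (by linarith), abs_of_pos (by positivity)]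
        ring
      rw [e]
    rcases le_total ⌊(s : ℝ) * 2 ^ n⌋₊ ⌊(t : ℝ) * 2 ^ n⌋₊ with hij | hij
    · exact aux _ _ hij (hfl t n)
    · rw [dist_comm, abs_sub_comm]
      exact aux _ _ hij (hfl s n)
  have hs := li_dy_floor_tendsto s
  have ht := li_dy_floor_tendsto t
  have l1 : Tendsto (fun n : ℕ => dist (γ (li_dy n ⌊(s : ℝ) * 2 ^ n⌋₊))
      (γ (li_dy n ⌊(t : ℝ) * 2 ^ n⌋₊))) atTop (𝓝 (dist (γ s) (γ t))) :=
    ((γ.continuous.tendsto s).comp hs).dist ((γ.continuous.tendsto t).comp ht)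
  have l2 : Tendsto (fun n : ℕ =>
      |((li_dy n ⌊(s : ℝ) * 2 ^ n⌋₊ : Time) : ℝ) - (li_dy n ⌊(t : ℝ) * 2 ^ n⌋₊ : Time)| * D)
      atTop (𝓝 (|(s : ℝ) - (t : ℝ)| * D)) :=
    ((((continuous_subtype_val.tendsto s).comp hs).sub
      ((continuous_subtype_val.tendsto t).comp ht)).abs).mul_const D
  rw [funext key] at l1
  exact tendsto_nhds_unique l1 l2

end Claimed.Agent.R210.LI.Geo
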