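/-
Row 210 (S0432), layer LI, file PG: piecewise geodesic curves of dyadic level `n`.      Architect: helper332.      Uses Dy.lean, Mono.lean.

* `li_pg_closed`: `li_PG n = ⋂ i, ⋂ _ : i < 2^n, ⋂ s, ⋂ t, ... {γ | dist (γ s) (γ t) = c * dist (γ a) (γ b)}`; each is closed (`isClosed_eq`, `continuous_eval_const`);
  implications with hypotheses not depending on `γ`: `isClosed_iInter`/`by_cases`.   (`setOf_forall`, `isClosed_iInter`, `isClosed_imp`-free approach: `by_cases h : hyp; simp [h]`.)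
* `li_pg_succ`: piece `j < 2^(n+1)` of level `n+1` lies in piece `i = j/2` of level `n`:  with `D = dist (γ (dy n i)) (γ (dy n (i+1)))`, for `s t` in the small piece
  `dist (γ s) (γ t) = 2^n |s-t| D` and `dist (γ (dy (n+1) j)) (γ (dy (n+1) (j+1))) = 2^n (1/2^(n+1)) D = D/2`  (`Dy.li_dy_coe`, `Dy.li_dy_double`; cases `j = 2i`, `j = 2i+1`).
* `li_pg_en_succ`: `Dy.li_sum_double`; for `i < 2^k`, `a = dy k i = dy (k+1) (2i)`, `m = dy (k+1) (2i+1)`, `b = dy k (i+1) = dy (k+1) (2i+2)`:  `dist (γ a) (γ m) = dist (γ m) (γ b) = dist (γ a) (γ b) / 2`;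
  `edist_dist`, `ENNReal.ofReal` algebra:  `2^(k+1) ((e/2)² + (e/2)²) = 2^k e²`.   (Easiest: prove the real identity for `li_enR` and use `Mono.li_en_eq_ofReal`.)
* `li_pg_energy`: `li_pg_mono` + `li_pg_en_succ` ⟹ `li_en k γ = li_en n γ` for `k ≥ n` (`Nat.le_induction`), `Mono.li_en_mono` for `k ≤ n`; `iSup_le`, `le_iSup`.
* `li_concat`: e.g. `Path.trans` (`Time = unitInterval` definitionally; `Path.trans_apply`), or `ContinuousMap.mk` with `Continuous.if_le`.
* `li_pg_concat`: see statement; pieces `i < 2^n` come from `γ₁`, pieces `2^n ≤ i` from `γ₂`;  `clampTime (2 * dy (n+1) i) = dy n i`, `clampTime (2 * dy (n+1) (2^n + i) - 1) = dy n i`.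
* `li_exists_pg`: induction on `n`; `n = 0` from `hgeo (w 0) (w 1)` and `Geo.li_pg_zero`; step: `γ₁` for `w`, `γ₂` for `fun i => w (2^n + i)`, `li_concat`, `li_pg_concat`.
-/
import Claimed.Agent.R210.LI.Dy
import Claimed.Agent.R210.LI.Mono
import Claimed.Agent.R210.LI.Geo

set_option autoImplicit false

open Claims.C0366 Claims.C0366.WeakHessian
open Set Filter MeasureTheory
open scoped ENNReal NNReal Topology

namespace Claimed.Agent.R210.LI.PG

open Claimed.Agent.R210.LI.Defs Claimed.Agent.R210.LI.Dy Claimed.Agent.R210.LI.Mono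
  Claimed.Agent.R210.LI.Geo

variable {X : Type*} [MetricSpace X]

theorem li_pg_closed (n : ℕ) : IsClosed (li_PG n : Set (Curve X)) := by
  unfold li_PG
  simp only [Set.ofPred_forall]
  refine isClosed_iInter fun i => isClosed_iInter fun _ => isClosed_iInter fun s =>
    isClosed_iInter fun t => isClosed_iInter fun _ => isClosed_iInter fun _ =>
    isClosed_iInter fun _ => isClosed_iInter fun _ => ?_
  exact isClosed_eq ((continuous_eval_const s).dist (continuous_eval_const t))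
    (continuous_const.mul ((continuous_eval_const _).dist (continuous_eval_const _)))

/-- the piece `j` of level `n+1` lies in the piece `j/2` of level `n`. -/
theorem li_piece_sub (n j : ℕ) :
    ((li_dy n (j / 2) : Time) : ℝ) ≤ (li_dy (n + 1) j : Time) ∧
      ((li_dy (n + 1) (j + 1) : Time) : ℝ) ≤ (li_dy n (j / 2 + 1) : Time) := by
  constructor
  · rw [← li_dy_double n (j / 2)]
    exact li_dy_mono (n + 1) (by omega)
  · rw [← li_dy_double n (j / 2 + 1)]
    exact li_dy_mono (n + 1) (by omega)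

/-- the length of a half piece. -/
theorem li_pg_half {n : ℕ} {γ : Curve X} (h : γ ∈ li_PG n) {j : ℕ} (hj : j < 2 ^ (n + 1)) :
    dist (γ (li_dy (n + 1) j)) (γ (li_dy (n + 1) (j + 1)))
      = dist (γ (li_dy n (j / 2))) (γ (li_dy n (j / 2 + 1))) / 2 := by
  have hi : j / 2 < 2 ^ n := by
    rw [pow_succ] at hj
    omega
  obtain ⟨h1, h2⟩ := li_piece_sub n j
  have h3 : ((li_dy (n + 1) j : Time) : ℝ) ≤ (li_dy (n + 1) (j + 1) : Time) :=
    li_dy_mono (n + 1) (Nat.le_succ j)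
  rw [h (j / 2) hi _ _ h1 (h3.trans h2) (h1.trans h3) h2, abs_sub_comm, li_dy_succ_sub hj,
    abs_of_pos (by positivity), pow_succ]
  field_simp

theorem li_pg_succ {n : ℕ} {γ : Curve X} (h : γ ∈ li_PG n) : γ ∈ li_PG (n + 1) := by
  intro j hj s t hs1 hs2 ht1 ht2
  have hi : j / 2 < 2 ^ n := by
    rw [pow_succ] at hj
    omega
  obtain ⟨h1, h2⟩ := li_piece_sub n j
  rw [li_pg_half h hj, h (j / 2) hi s t (h1.trans hs1) (hs2.trans h2) (h1.trans ht1) (ht2.trans h2),
    pow_succ]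
  ring

theorem li_pg_mono {n k : ℕ} (hnk : n ≤ k) {γ : Curve X} (h : γ ∈ li_PG n) : γ ∈ li_PG k := by
  induction k, hnk using Nat.le_induction with
  | base => exact h
  | succ k _ ih => exact li_pg_succ ih

theorem li_pg_enR_succ {k : ℕ} {γ : Curve X} (h : γ ∈ li_PG k) : li_enR (k + 1) γ = li_enR k γ := by
  unfold li_enR
  rw [pow_succ, mul_comm (2 ^ k) 2, li_sum_double]
  refine Finset.sum_congr rfl fun i hi => ?_
  have hi' : i < 2 ^ k := Finset.mem_range.1 hi
  have e1 : 2 * i < 2 ^ (k + 1) := by rw [pow_succ]; omega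
  have e2 : 2 * i + 1 < 2 ^ (k + 1) := by rw [pow_succ]; omega
  have d1 : 2 * i / 2 = i := by omega
  have d2 : (2 * i + 1) / 2 = i := by omega
  rw [li_pg_half h e1, li_pg_half h e2, d1, d2, pow_succ]
  ring

theorem li_pg_en_succ {k : ℕ} {γ : Curve X} (h : γ ∈ li_PG k) : li_en (k + 1) γ = li_en k γ := by
  rw [li_en_eq_ofReal, li_en_eq_ofReal, li_pg_enR_succ h]

theorem li_pg_energy {n : ℕ} {γ : Curve X} (h : γ ∈ li_PG n) : li_energy γ = li_en n γ := by
  have hge : ∀ k, n ≤ k → li_en k γ = li_en n γ := by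
    intro k hk
    induction k, hk using Nat.le_induction with
    | base => rfl
    | succ k hk ih => rw [li_pg_en_succ (li_pg_mono hk h), ih]
  refine le_antisymm (iSup_le fun k => ?_) (li_en_le_energy n γ)
  rcases le_total k n with hk | hk
  · exact li_en_mono γ hk
  · exact (hge k hk).le

/-- concatenation of two curves. -/
theorem li_concat (γ₁ γ₂ : Curve X) (h : γ₁ timeOne = γ₂ timeZero) :
    ∃ γ : Curve X, (∀ t : Time, (t : ℝ) ≤ 1 / 2 → γ t = γ₁ (clampTime (2 * (t : ℝ)))) ∧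
      (∀ t : Time, 1 / 2 ≤ (t : ℝ) → γ t = γ₂ (clampTime (2 * (t : ℝ) - 1))) := by
  classical
  have hc : Continuous clampTime :=
    Continuous.subtype_mk (continuous_const.max (continuous_const.min continuous_id)) _
  have hmid : ∀ t : Time, (t : ℝ) = 1 / 2 →
      γ₁ (clampTime (2 * (t : ℝ))) = γ₂ (clampTime (2 * (t : ℝ) - 1)) := by
    intro t ht
    have e1 : clampTime (2 * (t : ℝ)) = timeOne := by
      rw [ht]
      apply Subtype.ext
      rw [li_clamp_coe (by norm_num) (by norm_num)]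
      norm_num [timeOne]
    have e2 : clampTime (2 * (t : ℝ) - 1) = timeZero := by
      rw [ht]
      apply Subtype.ext
      rw [li_clamp_coe (by norm_num) (by norm_num)]
      norm_num [timeZero]
    rw [e1, e2, h]
  have hcont : Continuous (fun t : Time => if (t : ℝ) ≤ 1 / 2 then γ₁ (clampTime (2 * (t : ℝ)))
      else γ₂ (clampTime (2 * (t : ℝ) - 1))) := by
    refine Continuous.if_le ?_ ?_ continuous_subtype_val continuous_const hmid
    · exact γ₁.continuous.comp (hc.comp (continuous_const.mul continuous_subtype_val))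
    · exact γ₂.continuous.comp (hc.comp ((continuous_const.mul continuous_subtype_val).sub
        continuous_const))
  refine ⟨⟨_, hcont⟩, fun t ht => ?_, fun t ht => ?_⟩
  · exact if_pos ht
  · rcases ht.eq_or_lt with ht' | ht'
    · rw [← hmid t ht'.symm]
      exact if_pos ht'.symm.le
    · exact if_neg (not_le.2 ht')

theorem li_pg_concat {n : ℕ} {γ₁ γ₂ γ : Curve X} (h₁ : γ₁ ∈ li_PG n) (h₂ : γ₂ ∈ li_PG n)
    (hl : ∀ t : Time, (t : ℝ) ≤ 1 / 2 → γ t = γ₁ (clampTime (2 * (t : ℝ))))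
    (hr : ∀ t : Time, 1 / 2 ≤ (t : ℝ) → γ t = γ₂ (clampTime (2 * (t : ℝ) - 1))) :
    γ ∈ li_PG (n + 1) ∧ (∀ i ≤ 2 ^ n, γ (li_dy (n + 1) i) = γ₁ (li_dy n i)) ∧
      (∀ i ≤ 2 ^ n, γ (li_dy (n + 1) (2 ^ n + i)) = γ₂ (li_dy n i)) := by
  have hp : (0 : ℝ) < 2 ^ n := by positivity
  -- values at the dyadic points
  have cl : ∀ i : ℕ, i ≤ 2 ^ n → ((li_dy (n + 1) i : Time) : ℝ) = (i : ℝ) / 2 ^ n / 2 := by
    intro i hi
    rw [li_dy_coe (by rw [pow_succ]; omega), pow_succ]
    field_simp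
  have cr : ∀ i : ℕ, i ≤ 2 ^ n →
      ((li_dy (n + 1) (2 ^ n + i) : Time) : ℝ) = 1 / 2 + (i : ℝ) / 2 ^ n / 2 := by
    intro i hi
    rw [li_dy_coe (by rw [pow_succ]; omega), pow_succ]
    push_cast
    field_simp
  have ile : ∀ i : ℕ, i ≤ 2 ^ n → (i : ℝ) / 2 ^ n ≤ 1 := by
    intro i hi
    rw [div_le_one hp]
    exact_mod_cast hi
  have A : ∀ i ≤ 2 ^ n, γ (li_dy (n + 1) i) = γ₁ (li_dy n i) := by
    intro i hi
    rw [hl _ (by rw [cl i hi]; linarith [ile i hi]), cl i hi]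
    unfold li_dy
    congr 2
    ring
  have B : ∀ i ≤ 2 ^ n, γ (li_dy (n + 1) (2 ^ n + i)) = γ₂ (li_dy n i) := by
    intro i hi
    have h0 : (0 : ℝ) ≤ (i : ℝ) / 2 ^ n := by positivity
    rw [hr _ (by rw [cr i hi]; linarith), cr i hi]
    unfold li_dy
    congr 2
    ring
  refine ⟨?_, A, B⟩
  intro j hj s t hs1 hs2 ht1 ht2
  rcases lt_or_ge j (2 ^ n) with hjn | hjn
  · -- left half
    rw [cl j hjn.le] at hs1 ht1
    rw [cl (j + 1) hjn] at hs2 ht2
    have hj1 := ile (j + 1) hjn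
    have hj0 : (0 : ℝ) ≤ (j : ℝ) / 2 ^ n := by positivity
    rw [A j hjn.le, A (j + 1) hjn, hl s (by linarith), hl t (by linarith)]
    have es : ((clampTime (2 * (s : ℝ)) : Time) : ℝ) = 2 * (s : ℝ) :=
      li_clamp_coe (by linarith) (by linarith)
    have et : ((clampTime (2 * (t : ℝ)) : Time) : ℝ) = 2 * (t : ℝ) :=
      li_clamp_coe (by linarith) (by linarith)
    rw [h₁ j hjn (clampTime (2 * (s : ℝ))) (clampTime (2 * (t : ℝ)))
      (by rw [es, li_dy_coe hjn.le]; linarith) (by rw [es, li_dy_coe hjn]; linarith)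
      (by rw [et, li_dy_coe hjn.le]; linarith) (by rw [et, li_dy_coe hjn]; linarith), es, et,
      ← mul_sub, abs_mul, abs_of_pos (zero_lt_two' ℝ), pow_succ]
    ring
  · -- right half
    obtain ⟨i, rfl⟩ := Nat.exists_eq_add_of_le hjn
    have hin : i < 2 ^ n := by
      rw [pow_succ] at hj
      omega
    rw [cr i hin.le] at hs1 ht1
    rw [add_assoc, cr (i + 1) hin] at hs2 ht2
    have hj1 := ile (i + 1) hin
    have hj0 : (0 : ℝ) ≤ (i : ℝ) / 2 ^ n := by positivity
    rw [add_assoc, B i hin.le, B (i + 1) hin, hr s (by linarith), hr t (by linarith)]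
    have es : ((clampTime (2 * (s : ℝ) - 1) : Time) : ℝ) = 2 * (s : ℝ) - 1 :=
      li_clamp_coe (by linarith) (by linarith)
    have et : ((clampTime (2 * (t : ℝ) - 1) : Time) : ℝ) = 2 * (t : ℝ) - 1 :=
      li_clamp_coe (by linarith) (by linarith)
    have e3 : 2 * (s : ℝ) - 1 - (2 * (t : ℝ) - 1) = 2 * ((s : ℝ) - (t : ℝ)) := by ring
    rw [h₂ i hin (clampTime (2 * (s : ℝ) - 1)) (clampTime (2 * (t : ℝ) - 1))
      (by rw [es, li_dy_coe hin.le]; linarith) (by rw [es, li_dy_coe hin]; linarith)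
      (by rw [et, li_dy_coe hin.le]; linarith) (by rw [et, li_dy_coe hin]; linarith), es, et,
      e3, abs_mul, abs_of_pos (zero_lt_two' ℝ), pow_succ]
    ring

/-- piecewise geodesic interpolation of `2^n + 1` points. -/
theorem li_exists_pg (hgeo : li_GeoSpace X) (n : ℕ) (w : ℕ → X) :
    ∃ γ : Curve X, γ ∈ li_PG n ∧ ∀ i ≤ 2 ^ n, γ (li_dy n i) = w i := by
  induction n generalizing w with
  | zero =>
    obtain ⟨γ, hγ, h0, h1⟩ := hgeo (w 0) (w 1)
    refine ⟨γ, (li_pg_zero γ).2 hγ, fun i hi => ?_⟩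
    have hi' : i = 0 ∨ i = 1 := by
      rw [pow_zero] at hi
      omega
    rcases hi' with rfl | rfl
    · rw [li_dy_zero, h0]
    · rw [li_dy_zero_one, h1]
  | succ n ih =>
    obtain ⟨γ₁, hγ₁, hw₁⟩ := ih w
    obtain ⟨γ₂, hγ₂, hw₂⟩ := ih (fun i => w (2 ^ n + i))
    have hjoin : γ₁ timeOne = γ₂ timeZero := by
      rw [← li_dy_top (le_refl (2 ^ n)), hw₁ _ le_rfl, ← li_dy_zero n, hw₂ 0 (Nat.zero_le _)]
      rfl
    obtain ⟨γ, hl, hr⟩ := li_concat γ₁ γ₂ hjoin
    obtain ⟨hpg, hA, hB⟩ := li_pg_concat hγ₁ hγ₂ hl hr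
    refine ⟨γ, hpg, fun i hi => ?_⟩
    rcases le_total i (2 ^ n) with hin | hin
    · rw [hA i hin, hw₁ i hin]
    · obtain ⟨k, rfl⟩ := Nat.exists_eq_add_of_le hin
      have hk : k ≤ 2 ^ n := by
        rw [pow_succ] at hi
        omega
      rw [hB k hk, hw₂ k hk]

end Claimed.Agent.R210.LI.PG
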