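/-
Row 210 (S0432), layer LI, file LiftA: ingredients of the lifting theorem.      Architect: helper332.      Uses PG, Cpt, Dy.

* `li_measurable_comp_of_finite`: `(G ∘ φ) ⁻¹' S = φ ⁻¹' (G ⁻¹' S ∩ range φ)`, and `G ⁻¹' S ∩ range φ` is finite, hence measurable (`Set.Finite.measurableSet`).
* `li_approx_chain_finite`: the range is contained in the image of the finite set `Set.pi univ (fun _ : Fin (N+1) => range T)` (`Set.Finite.pi`/`Set.Finite.pi'`) under `c ↦ fun i => c ⟨min i N, _⟩`.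
* `li_lift_map`: `G u := Classical.choose (PG.li_exists_pg hgeo n u)`, `φ w := fun i => T (w (min i (2^n)))` (measurable: `measurable_pi_iff`, `hT.comp (measurable_pi_apply _)`), `Φ := G ∘ φ`;  for `i ≤ 2^n`, `min i (2^n) = i`.
   `MeasurableSingletonClass (ℕ → X)` is an instance.
* `li_exists_approx`: `T k := SimpleFunc.nearestPt (TopologicalSpace.denseSeq X) k`, `o := denseSeq X 0`; `SimpleFunc.measurable`, `SimpleFunc.finite_range`, `SimpleFunc.tendsto_nearestPt` (`(denseRange_denseSeq X).closure_range`/`DenseRange`), `SimpleFunc.edist_nearestPt_le _ _ (Nat.zero_le k)` (convert `edist` to `dist`: `edist_le_edist`-free: `edist_dist`, `ENNReal.ofReal_le_ofReal_iff dist_nonneg`).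
* `li_lift_tight`: `S R := {w | ∀ i ≤ 2^n, dist (w i) o ≤ R}` (`R : ℕ`), measurable (finite intersection: `MeasurableSet.iInter`, `measurableSet_le`), monotone, union `= univ`, so `Λ (S R)ᶜ → 0` (`tendsto_measure_iInter_atTop`/`measure_iUnion..`): pick `R` with `Λ (S R)ᶜ ≤ ε`.
   `K := {γ | γ timeZero ∈ closedBall o (2R) ∧ li_energy γ ≤ c}`, `c := 4^n (4R)²`, compact by `Cpt.li_compact (isCompact_closedBall o _)`.  For `w ∈ S R`: nodes `x_i = T k (w i)` satisfy `dist x_i o ≤ dist x_i (w i) + dist (w i) o ≤ 2R`;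
   `li_energy (Φ k w) = li_en n (Φ k w)` (`PG.li_pg_energy`) `= Σ_{i<2^n} 2^n edist x_i x_{i+1}² ≤ 2^n 2^n (4R)²`; `timeZero = li_dy n 0` (`Dy.li_dy_zero`).   So `(Φ k) ⁻¹' Kᶜ ⊆ (S R)ᶜ`; `Measure.map_apply (hΦ k) K-compl measurable`.
-/
import Claimed.Agent.R210.LI.PG
import Claimed.Agent.R210.LI.Cpt

set_option autoImplicit false

open Claims.C0366 Claims.C0366.WeakHessian
open Set Filter MeasureTheory
open scoped ENNReal NNReal Topology

namespace Claimed.Agent.R210.LI.LiftA

open Claimed.Agent.R210.LI.Defs Claimed.Agent.R210.LI.Dy Claimed.Agent.R210.LI.Mono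
  Claimed.Agent.R210.LI.PG Claimed.Agent.R210.LI.Cpt

theorem li_measurable_comp_of_finite {Ω S T : Type*} [MeasurableSpace Ω] [MeasurableSpace S]
    [MeasurableSingletonClass S] [MeasurableSpace T] (φ : Ω → S) (hφ : Measurable φ)
    (hfin : (range φ).Finite) (G : S → T) : Measurable (G ∘ φ) := by
  intro A _
  have h : (G ∘ φ) ⁻¹' A = φ ⁻¹' (G ⁻¹' A ∩ range φ) := by
    ext ω
    simp
  rw [h]
  exact hφ (hfin.subset inter_subset_right).measurableSet

variable {X : Type*} [MetricSpace X] [MeasurableSpace X] [BorelSpace X]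

theorem li_approx_chain_finite (T : X → X) (hT : (range T).Finite) (N : ℕ) :
    (range (fun (w : ℕ → X) (i : ℕ) => T (w (min i N)))).Finite := by
  have h1 : (Set.pi univ (fun _ : Fin (N + 1) => range T)).Finite := Set.Finite.pi fun _ => hT
  refine (h1.image (fun (c : Fin (N + 1) → X) (i : ℕ) =>
    c ⟨min i N, Nat.lt_succ_of_le (min_le_right _ _)⟩)).subset ?_
  rintro _ ⟨w, rfl⟩
  exact ⟨fun j => T (w j), fun j _ => mem_range_self _, rfl⟩

/-- a MEASURABLE piecewise geodesic interpolation of the finitely valued chain `T (w 0), T (w 1), ...`. -/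
theorem li_lift_map (hgeo : li_GeoSpace X) (n : ℕ) (T : X → X) (hT : Measurable T)
    (hfin : (range T).Finite) :
    ∃ Φ : (ℕ → X) → Curve X, Measurable Φ ∧
      ∀ w, Φ w ∈ li_PG n ∧ ∀ i ≤ 2 ^ n, Φ w (li_dy n i) = T (w i) := by
  classical
  set G : (ℕ → X) → Curve X := fun u => Classical.choose (li_exists_pg hgeo n u) with hG
  have hGs : ∀ u, G u ∈ li_PG n ∧ ∀ i ≤ 2 ^ n, G u (li_dy n i) = u i := fun u =>
    Classical.choose_spec (li_exists_pg hgeo n u)
  set φ : (ℕ → X) → (ℕ → X) := fun w i => T (w (min i (2 ^ n))) with hφ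
  have hφm : Measurable φ :=
    measurable_pi_iff.2 fun i => hT.comp (measurable_pi_apply _)
  refine ⟨G ∘ φ, li_measurable_comp_of_finite φ hφm (li_approx_chain_finite T hfin (2 ^ n)) G,
    fun w => ⟨(hGs (φ w)).1, fun i hi => ?_⟩⟩
  have := (hGs (φ w)).2 i hi
  simp only [Function.comp]
  rw [this]
  simp only [hφ, min_eq_left hi]

/-- finitely valued measurable approximations of the identity. -/
theorem li_exists_approx [SecondCountableTopology X] (hne : Nonempty X) :
    ∃ (T : ℕ → X → X) (o : X), (∀ k, Measurable (T k)) ∧ (∀ k, (range (T k)).Finite) ∧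
      (∀ x, Tendsto (fun k => T k x) atTop (𝓝 x)) ∧ ∀ k x, dist (T k x) x ≤ dist o x := by
  refine ⟨fun k => SimpleFunc.nearestPt (TopologicalSpace.denseSeq X) k,
    TopologicalSpace.denseSeq X 0, fun k => SimpleFunc.measurable _,
    fun k => SimpleFunc.finite_range _, fun x => ?_, fun k x => ?_⟩
  · refine SimpleFunc.tendsto_nearestPt ?_
    rw [(TopologicalSpace.denseRange_denseSeq X).closure_range]
    exact mem_univ x
  · have h := SimpleFunc.edist_nearestPt_le (TopologicalSpace.denseSeq X) x (Nat.zero_le k)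
    rw [edist_dist, edist_dist, ENNReal.ofReal_le_ofReal_iff dist_nonneg] at h
    exact h

theorem li_lift_tight [ProperSpace X] (n : ℕ) (Λ : Measure (ℕ → X)) (hΛ : IsProbabilityMeasure Λ)
    (T : ℕ → X → X) (o : X) (hTo : ∀ k x, dist (T k x) x ≤ dist o x)
    (Φ : ℕ → (ℕ → X) → Curve X) (hΦ : ∀ k, Measurable (Φ k))
    (hΦ' : ∀ k w, Φ k w ∈ li_PG n ∧ ∀ i ≤ 2 ^ n, Φ k w (li_dy n i) = T k (w i))
    (ε : ℝ≥0∞) (hε : 0 < ε) :
    ∃ K : Set (Curve X), IsCompact K ∧ ∀ k, (Λ.map (Φ k)) Kᶜ ≤ ε := by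
  classical
  -- the exhausting sets
  set S : ℕ → Set (ℕ → X) := fun R => {w | ∀ i ≤ 2 ^ n, dist (w i) o ≤ R} with hS
  have hSmeas : ∀ R, MeasurableSet (S R) := by
    intro R
    have : S R = ⋂ i : ℕ, ⋂ _ : i ≤ 2 ^ n, {w : ℕ → X | dist (w i) o ≤ R} := by
      ext w
      simp [hS]
    rw [this]
    refine MeasurableSet.iInter fun i => MeasurableSet.iInter fun _ => ?_
    exact measurableSet_le ((measurable_pi_apply i).dist measurable_const) measurable_const
  have hSanti : Antitone fun R => (S R)ᶜ := by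
    intro R R' hRR'
    refine compl_subset_compl.2 fun w hw i hi => (hw i hi).trans ?_
    exact_mod_cast hRR'
  have hSinter : ⋂ R, (S R)ᶜ = ∅ := by
    rw [← compl_iUnion, compl_empty_iff]
    refine eq_univ_of_forall fun w => ?_
    obtain ⟨R, hR⟩ := exists_nat_ge
      ((Finset.range (2 ^ n + 1)).sup' ⟨0, by simp⟩ (fun i => dist (w i) o))
    refine mem_iUnion.2 ⟨R, fun i hi => le_trans ?_ hR⟩
    exact Finset.le_sup' (fun i => dist (w i) o) (Finset.mem_range.2 (Nat.lt_succ_of_le hi))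
  have htend : Tendsto (fun R => Λ (S R)ᶜ) atTop (𝓝 0) := by
    have := tendsto_measure_iInter_atTop (μ := Λ) (s := fun R => (S R)ᶜ)
      (fun R => (hSmeas R).compl.nullMeasurableSet) hSanti ⟨0, measure_ne_top _ _⟩
    rw [hSinter, measure_empty] at this
    exact this
  obtain ⟨R, hR⟩ := ((tendsto_order.1 htend).2 ε hε).exists
  set c : ℝ≥0 := 4 ^ n * (4 * (R : ℝ≥0)) ^ 2 with hc
  refine ⟨{γ : Curve X | γ timeZero ∈ Metric.closedBall o (2 * R) ∧ li_energy γ ≤ c},
    li_compact (isCompact_closedBall o _) c, fun k => ?_⟩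
  have hKc : IsCompact {γ : Curve X | γ timeZero ∈ Metric.closedBall o (2 * R) ∧ li_energy γ ≤ c} :=
    li_compact (isCompact_closedBall o _) c
  rw [Measure.map_apply (hΦ k) hKc.measurableSet.compl]
  refine le_trans (measure_mono ?_) hR.le
  rw [preimage_compl]
  refine compl_subset_compl.2 fun w hw => ?_
  have hnode : ∀ i ≤ 2 ^ n, dist (T k (w i)) o ≤ 2 * R := by
    intro i hi
    have h1 := hTo k (w i)
    have h2 := hw i hi
    have h3 : dist (T k (w i)) o ≤ dist (T k (w i)) (w i) + dist (w i) o := dist_triangle _ _ _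
    rw [dist_comm o (w i)] at h1
    linarith
  refine ⟨?_, ?_⟩
  · rw [← li_dy_zero n, (hΦ' k w).2 0 (Nat.zero_le _)]
    exact Metric.mem_closedBall.2 (hnode 0 (Nat.zero_le _))
  · rw [li_pg_energy (hΦ' k w).1]
    unfold li_en
    have hterm : ∀ i ∈ Finset.range (2 ^ n),
        (2 : ℝ≥0∞) ^ n * edist (Φ k w (li_dy n i)) (Φ k w (li_dy n (i + 1))) ^ 2
          ≤ (2 : ℝ≥0∞) ^ n * ((4 * (R : ℝ≥0) : ℝ≥0) : ℝ≥0∞) ^ 2 := by
      intro i hi
      have hi' : i < 2 ^ n := Finset.mem_range.1 hi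
      rw [(hΦ' k w).2 i hi'.le, (hΦ' k w).2 (i + 1) hi']
      gcongr
      rw [edist_dist, ← ENNReal.ofReal_coe_nnreal]
      refine ENNReal.ofReal_le_ofReal ?_
      have h1 := hnode i hi'.le
      have h2 := hnode (i + 1) hi'
      have h3 : dist (T k (w i)) (T k (w (i + 1)))
          ≤ dist (T k (w i)) o + dist o (T k (w (i + 1))) := dist_triangle _ _ _
      rw [dist_comm o] at h3
      push_cast
      linarith
    refine (Finset.sum_le_sum hterm).trans ?_
    rw [Finset.sum_const, Finset.card_range, nsmul_eq_mul, hc]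
    push_cast
    rw [← mul_assoc, ← mul_pow]
    norm_num

end Claimed.Agent.R210.LI.LiftA
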