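/-
Row 210 (S0432), layer LI, file WT: weak convergence of sequences of probability measures, in a coercion-free form.      Architect: helper332.
`li_WT P Q` : `∫ f dP_k → ∫ f dQ` for all bounded continuous `f`.   Bridge to Mathlib: for `P' k : ProbabilityMeasure E := ⟨P k, hP k⟩`, `Q' := ⟨Q, hQ⟩`,
`ProbabilityMeasure.tendsto_iff_forall_integral_tendsto : Tendsto P' atTop (𝓝 Q') ↔ ∀ f : E →ᵇ ℝ, Tendsto (fun k => ∫ x, f x ∂(P' k : Measure E)) atTop (𝓝 (∫ x, f x ∂(Q' : Measure E)))`.

* `li_wt_map`: `integral_map hg.aemeasurable f.continuous.aestronglyMeasurable`, test function `f.compContinuous ⟨g, hg⟩`.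
* `li_wt_of_pointwise`: `integral_map`, then `tendsto_integral_of_dominated_convergence (fun _ => ‖f‖)` (`f.norm_coe_le_norm`, `f.continuous.tendsto`).
* `li_wt_closed`: `ProbabilityMeasure.limsup_measure_closed_le_of_tendsto`: `1 = limsup P_k F ≤ Q F`  (`prob_compl_eq_zero_iff hF.measurableSet`, `limsup_const`).
* `li_wt_lintegral_le`: `lintegral_le_liminf_lintegral_of_forall_isOpen_measure_le_liminf_measure hf hf0` with `ProbabilityMeasure.le_liminf_measure_open_of_tendsto`.
* `li_extract`: `S := range P'`; `IsTightMeasureSet` by `isTightMeasureSet_iff_exists_isCompact_measure_compl_le`; `isCompact_closure_of_isTightMeasureSet`;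
  `ProbabilityMeasure E` is metrizable (instance, `E` separable metrizable), so `IsCompact.tendsto_subseq` (`(hc.isSeqCompact ..)`) applied to `P' k ∈ closure S`.
-/
import Claimed.Agent.R210.LI.Defs

set_option autoImplicit false
set_option linter.unusedSectionVars false

open Set Filter MeasureTheory
open scoped ENNReal NNReal Topology BoundedContinuousFunction

namespace Claimed.Agent.R210.LI.WT

variable {E : Type*} [MetricSpace E] [SecondCountableTopology E] [MeasurableSpace E] [BorelSpace E]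

/-- weak convergence of a sequence of measures (tested on bounded continuous functions). -/
def li_WT (P : ℕ → Measure E) (Q : Measure E) : Prop :=
  ∀ f : E →ᵇ ℝ, Tendsto (fun k => ∫ x, f x ∂(P k)) atTop (𝓝 (∫ x, f x ∂Q))

theorem li_wt_subseq {P : ℕ → Measure E} {Q : Measure E} (h : li_WT P Q) {φ : ℕ → ℕ}
    (hφ : StrictMono φ) : li_WT (P ∘ φ) Q := fun f => (h f).comp hφ.tendsto_atTop

theorem li_wt_unique {P : ℕ → Measure E} {Q Q' : Measure E} [IsFiniteMeasure Q] [IsFiniteMeasure Q']
    (h : li_WT P Q) (h' : li_WT P Q') : Q = Q' :=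
  ext_of_forall_integral_eq_of_IsFiniteMeasure fun f => tendsto_nhds_unique (h f) (h' f)

theorem li_wt_of_eventually_eq {P : ℕ → Measure E} {R : Measure E}
    (hR : ∀ᶠ k in atTop, P k = R) : li_WT P R := fun f =>
  tendsto_const_nhds.congr' (hR.mono fun k hk => by simp only [hk])

theorem li_wt_map {E' : Type*} [MetricSpace E'] [SecondCountableTopology E'] [MeasurableSpace E']
    [BorelSpace E'] {P : ℕ → Measure E} {Q : Measure E} (h : li_WT P Q) (g : E → E')
    (hg : Continuous g) : li_WT (fun k => (P k).map g) (Q.map g) := by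
  intro f
  set F : E →ᵇ ℝ := f.compContinuous ⟨g, hg⟩ with hF
  have h1 := h F
  have e : ∀ R : Measure E, ∫ x, f x ∂(R.map g) = ∫ x, F x ∂(R) := by
    intro R
    rw [integral_map hg.aemeasurable f.continuous.aestronglyMeasurable]
    rfl
  simp only [e]
  exact h1

theorem li_wt_of_pointwise {Ω : Type*} [MeasurableSpace Ω] (Λ : Measure Ω) [IsFiniteMeasure Λ]
    (g : ℕ → Ω → E) (g' : Ω → E) (hg : ∀ k, Measurable (g k)) (hg' : Measurable g')
    (hlim : ∀ ω, Tendsto (fun k => g k ω) atTop (𝓝 (g' ω))) :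
    li_WT (fun k => Λ.map (g k)) (Λ.map g') := by
  intro f
  have e : ∀ φ : Ω → E, Measurable φ → ∫ x, f x ∂(Λ.map φ) = ∫ ω, f (φ ω) ∂Λ := by
    intro φ hφ
    rw [integral_map hφ.aemeasurable f.continuous.aestronglyMeasurable]
  rw [e g' hg']
  simp only [e _ (hg _)]
  refine tendsto_integral_of_dominated_convergence (fun _ => ‖f‖) ?_ (integrable_const _) ?_ ?_
  · intro k
    exact (f.continuous.measurable.comp (hg k)).aestronglyMeasurable
  · intro k
    exact Eventually.of_forall fun ω => f.norm_coe_le_norm _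
  · exact Eventually.of_forall fun ω => (f.continuous.tendsto _).comp (hlim ω)

/-- bridge to `ProbabilityMeasure` convergence. -/
theorem li_wt_tendsto_prob {P : ℕ → Measure E} {Q : Measure E} (hP : ∀ k, IsProbabilityMeasure (P k))
    (hQ : IsProbabilityMeasure Q) (h : li_WT P Q) :
    ∃ (P' : ℕ → ProbabilityMeasure E) (Q' : ProbabilityMeasure E),
      (∀ k, (P' k : Measure E) = P k) ∧ (Q' : Measure E) = Q ∧ Tendsto P' atTop (𝓝 Q') := by
  let P' : ℕ → ProbabilityMeasure E := fun k => ⟨P k, hP k⟩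
  let Q' : ProbabilityMeasure E := ⟨Q, hQ⟩
  exact ⟨P', Q', fun _ => rfl, rfl,
    ProbabilityMeasure.tendsto_iff_forall_integral_tendsto.2 fun f => h f⟩

theorem li_wt_closed {P : ℕ → Measure E} {Q : Measure E} (hP : ∀ k, IsProbabilityMeasure (P k))
    (hQ : IsProbabilityMeasure Q) (h : li_WT P Q) {F : Set E} (hF : IsClosed F)
    (h0 : ∀ k, P k Fᶜ = 0) : Q Fᶜ = 0 := by
  obtain ⟨P', Q', hP', hQ', hlim⟩ := li_wt_tendsto_prob hP hQ h
  have h1 := ProbabilityMeasure.limsup_measure_closed_le_of_tendsto hlim hF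
  have h2 : ∀ k, P k F = 1 := fun k => by
    have := hP k
    exact (prob_compl_eq_zero_iff hF.measurableSet).1 (h0 k)
  have h3 : (1 : ℝ≥0∞) ≤ Q F := by
    simp only [hP', hQ', h2, limsup_const] at h1
    exact h1
  exact (prob_compl_eq_zero_iff hF.measurableSet).2 (le_antisymm prob_le_one h3)

theorem li_wt_lintegral_le {P : ℕ → Measure E} {Q : Measure E} (hP : ∀ k, IsProbabilityMeasure (P k))
    (hQ : IsProbabilityMeasure Q) (h : li_WT P Q) (f : E → ℝ) (hf : Continuous f)
    (hf0 : ∀ x, 0 ≤ f x) :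
    ∫⁻ x, ENNReal.ofReal (f x) ∂Q ≤ liminf (fun k => ∫⁻ x, ENNReal.ofReal (f x) ∂(P k)) atTop := by
  obtain ⟨P', Q', hP', hQ', hlim⟩ := li_wt_tendsto_prob hP hQ h
  refine lintegral_le_liminf_lintegral_of_forall_isOpen_measure_le_liminf_measure hf hf0
    (fun G hG => ?_)
  have := ProbabilityMeasure.le_liminf_measure_open_of_tendsto hlim hG
  simp only [hP', hQ'] at this
  exact this

/-- Prokhorov: a tight sequence of probability measures has a weakly convergent subsequence. -/
theorem li_extract (P : ℕ → Measure E) (hP : ∀ k, IsProbabilityMeasure (P k))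
    (htight : ∀ ε : ℝ≥0∞, 0 < ε → ∃ K : Set E, IsCompact K ∧ ∀ k, P k Kᶜ ≤ ε) :
    ∃ (Q : Measure E) (φ : ℕ → ℕ), IsProbabilityMeasure Q ∧ StrictMono φ ∧ li_WT (P ∘ φ) Q := by
  classical
  let P' : ℕ → ProbabilityMeasure E := fun k => ⟨P k, hP k⟩
  have hT : IsTightMeasureSet {((μ : ProbabilityMeasure E) : Measure E) | μ ∈ range P'} := by
    rw [isTightMeasureSet_iff_exists_isCompact_measure_compl_le]
    intro ε hε
    obtain ⟨K, hK, hKP⟩ := htight ε hε
    refine ⟨K, hK, ?_⟩
    rintro _ ⟨_, ⟨k, rfl⟩, rfl⟩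
    exact hKP k
  have hc : IsCompact (closure (range P')) := isCompact_closure_of_isTightMeasureSet hT
  obtain ⟨Q', -, φ, hφ, hlim⟩ := hc.tendsto_subseq (x := P')
    (fun k => subset_closure (mem_range_self k))
  refine ⟨(Q' : Measure E), φ, inferInstance, hφ, ?_⟩
  intro f
  have := (ProbabilityMeasure.tendsto_iff_forall_integral_tendsto.1 hlim) f
  exact this

end Claimed.Agent.R210.LI.WT
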