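/-
Row 210 (S0432), layer LI, file Lift: lifting of a law on chains of points to a law on piecewise geodesic curves,
WITHOUT measurable selection (finitely valued approximations + Prokhorov).
Architect: helper332.   Plan of the layer: header of LI/Ifc.lean.   (Assembled from LiftA.lean, WT.lean, PG.lean.)
-/
import Claimed.Agent.R210.LI.LiftA
import Claimed.Agent.R210.LI.WT

set_option autoImplicit false

open Claims.C0366 Claims.C0366.WeakHessian
open Set Filter MeasureTheory
open scoped ENNReal NNReal Topology

namespace Claimed.Agent.R210.LI.Lift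

open Claimed.Agent.R210.Defs Claimed.Agent.R210.LI.Defs Claimed.Agent.R210.LI.LiftA
  Claimed.Agent.R210.LI.WT Claimed.Agent.R210.LI.PG

variable {X : Type*} [MetricSpace X] [MeasurableSpace X] [BorelSpace X]

/-- **Lifting.**  `Λ` = law of a chain `w 0, w 1, ...` of points; there is a law `π` on piecewise geodesic curves of level `n`
whose consecutive nodes have the same joint laws as the consecutive points of the chain. -/
theorem li_lift [ProperSpace X] (hgeo : li_GeoSpace X) (n : ℕ) (Λ : Measure (ℕ → X))
    (hΛ : IsProbabilityMeasure Λ) :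
    ∃ π : Measure (Curve X), IsProbabilityMeasure π ∧ π (li_PG n)ᶜ = 0 ∧
      ∀ i < 2 ^ n, Measure.map (fun γ : Curve X => (γ (li_dy n i), γ (li_dy n (i + 1)))) π
        = Measure.map (fun w : ℕ → X => (w i, w (i + 1))) Λ := by
  have hne : Nonempty X := by
    have : Nonempty (ℕ → X) := nonempty_of_isProbabilityMeasure Λ
    exact this.map (fun w => w 0)
  obtain ⟨T, o, hTm, hTf, hTlim, hTo⟩ := li_exists_approx hne
  choose Φ hΦm hΦ using fun k => li_lift_map hgeo n (T k) (hTm k) (hTf k)
  set P : ℕ → Measure (Curve X) := fun k => Λ.map (Φ k) with hPdef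
  have hP : ∀ k, IsProbabilityMeasure (P k) := fun k =>
    Measure.isProbabilityMeasure_map (hΦm k).aemeasurable
  obtain ⟨Q, φ, hQ, hφ, hWT⟩ :=
    li_extract P hP (fun ε hε => li_lift_tight n Λ hΛ T o hTo Φ hΦm hΦ ε hε)
  refine ⟨Q, hQ, ?_, ?_⟩
  · refine li_wt_closed (fun k => hP (φ k)) hQ hWT (li_pg_closed n) (fun k => ?_)
    show (Λ.map (Φ (φ k))) _ = 0
    rw [Measure.map_apply (hΦm _) (li_pg_closed n).measurableSet.compl]
    have : Φ (φ k) ⁻¹' (li_PG n)ᶜ = ∅ := by
      ext w
      simp [(hΦ (φ k) w).1]
    rw [this]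
    simp
  · intro i hi
    have hg : Continuous (fun γ : Curve X => (γ (li_dy n i), γ (li_dy n (i + 1)))) :=
      (continuous_eval_const _).prodMk (continuous_eval_const _)
    have h1 := li_wt_map hWT _ hg
    have h2 : li_WT (fun k => Λ.map (fun w : ℕ → X => (T k (w i), T k (w (i + 1)))))
        (Λ.map (fun w : ℕ → X => (w i, w (i + 1)))) := by
      refine li_wt_of_pointwise Λ _ _ (fun k => ?_) ?_ (fun w => ?_)
      · exact ((hTm k).comp (measurable_pi_apply i)).prodMk
          ((hTm k).comp (measurable_pi_apply (i + 1)))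
      · exact (measurable_pi_apply i).prodMk (measurable_pi_apply (i + 1))
      · exact (hTlim (w i)).prodMk_nhds (hTlim (w (i + 1)))
    have h3 := li_wt_subseq h2 hφ
    have h4 : (fun k => ((P ∘ φ) k).map
        (fun γ : Curve X => (γ (li_dy n i), γ (li_dy n (i + 1)))))
        = (fun k => Λ.map (fun w : ℕ → X => (T k (w i), T k (w (i + 1))))) ∘ φ := by
      funext k
      simp only [Function.comp, hPdef]
      rw [Measure.map_map hg.measurable (hΦm _)]
      congr 1
      funext w
      simp only [Function.comp]
      rw [(hΦ (φ k) w).2 i hi.le, (hΦ (φ k) w).2 (i + 1) hi]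
    rw [h4] at h1
    have : IsProbabilityMeasure (Q.map
        (fun γ : Curve X => (γ (li_dy n i), γ (li_dy n (i + 1))))) :=
      Measure.isProbabilityMeasure_map hg.measurable.aemeasurable
    have : IsProbabilityMeasure (Λ.map (fun w : ℕ → X => (w i, w (i + 1)))) :=
      Measure.isProbabilityMeasure_map
        ((measurable_pi_apply i).prodMk (measurable_pi_apply (i + 1))).aemeasurable
    exact li_wt_unique h1 h3

end Claimed.Agent.R210.LI.Lift
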