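/-
Row 210 (S0432), layer LI, file CoreA: ingredients of the core theorem.      Architect: helper332.      Uses Chain, Lift, PG, Cpt, Mono, Dy.

* `li_exists_coupling`: if `W2sq μ ν = ∞` take `μ.prod ν` (`Measure.map_fst_prod`, `Measure.map_snd_prod`, `measure_univ`, `one_smul`); else `W2sq μ ν < W2sq μ ν + δ` (`ENNReal.lt_add_right`), unfold `W2sq`, `iInf_lt_iff` twice.
* `li_lintegral_en`: `li_en n γ = Σ_i 2^n edist(..)²`; `lintegral_finset_sum` (each term measurable: continuous), `lintegral_const_mul`; `∫⁻ γ, edist (γ a) (γ b)^2 ∂π = ∫⁻ p, edist p.1 p.2 ^2 ∂(π.map (fun γ => (γ a, γ b)))` (`lintegral_map`, measurability of `p ↦ edist p.1 p.2 ^ 2`: `measurable_edist`/`continuous_edist.measurable`).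
* `li_level_plan`:  `δ := ε / 4^n` (`> 0`: `ENNReal.div_pos hε.ne' (by simp)`).   `ν i := μ (li_dy n i)`, `q i` from `li_exists_coupling (ν i) (ν (i+1)) δ` (`choose`), `Λ` from `Chain.li_chain ν _ q _ (2^n)`, `π` from `Lift.li_lift hgeo n Λ`.
   pair laws: `π.map (pair i) = Λ.map (pair i) = q i` for `i < 2^n`.   Marginals: `i < 2^n`: `π.map (eval (dy n i)) = (π.map (pair i)).map Prod.fst = (q i).map Prod.fst = ν i` (`Measure.map_map`);
   `i ≥ 2^n`: `li_dy n i = li_dy n (2^n - 1 + 1)` (`Dy.li_dy_top` twice), second marginal of pair `2^n - 1` (`Nat.pos_pow`/`Nat.one_le_two_pow`).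
   Energy: `li_lintegral_en`, `∫ li_en n dπ = Σ 2^n cost (q i) ≤ Σ 2^n (W_i + δ) = Σ 2^n W_i + 2^n 2^n δ ≤ B + ε`  (`Finset.sum_add_distrib`, `Finset.sum_const`, `Finset.card_range`, `ENNReal.mul_div_cancel`-type: `4^n = 2^n * 2^n`).
* `li_core_tight`: `ε > 0`.  `o : X` any point (`X` nonempty since `μ0` is a probability).  `μ0 (closedBall o R)ᶜ → 0` as `R → ∞` in `ℕ` (`tendsto_measure_iInter_atTop`-type, `⋂ R, (closedBall o R)ᶜ = ∅`): choose `R` with `≤ ε/2`.
   choose `c : ℝ≥0`, `c > 0`, with `C / c ≤ ε/2` (if `ε = ∞` anything; else `c := (2 C / ε).toNNReal + 1`...).  `K := {γ | γ timeZero ∈ closedBall o R ∧ li_energy γ ≤ c}` (`Cpt.li_compact (isCompact_closedBall o R) c`).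
   `Kᶜ ⊆ (eval 0)⁻¹' (closedBall o R)ᶜ ∪ {γ | c < li_energy γ}`;  first part: `Measure.map_apply`; second: Markov `meas_ge_le_lintegral_div` / `mul_meas_ge_le_lintegral` with `Mono.li_energy_measurable`.
-/
import Claimed.Agent.R210.LI.Chain
import Claimed.Agent.R210.LI.Lift

set_option autoImplicit false

open Claims.C0366 Claims.C0366.WeakHessian
open Set Filter MeasureTheory
open scoped ENNReal NNReal Topology

namespace Claimed.Agent.R210.LI.CoreA

open Claimed.Agent.R210.Defs Claimed.Agent.R210.LI.Defs Claimed.Agent.R210.LI.Dy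
  Claimed.Agent.R210.LI.Mono Claimed.Agent.R210.LI.PG Claimed.Agent.R210.LI.Cpt
  Claimed.Agent.R210.LI.Chain Claimed.Agent.R210.LI.Lift

variable {X : Type*} [MetricSpace X] [MeasurableSpace X] [BorelSpace X]

theorem li_exists_coupling (μ ν : Measure X) (hμ : IsProbabilityMeasure μ)
    (hν : IsProbabilityMeasure ν) (δ : ℝ≥0∞) (hδ : 0 < δ) :
    ∃ q : Measure (X × X), IsCoupling q μ ν ∧ QuadraticTransportCost q ≤ W2sq μ ν + δ := by
  by_cases hW : W2sq μ ν = ∞
  · refine ⟨μ.prod ν, ⟨?_, ?_⟩, ?_⟩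
    · rw [Measure.map_fst_prod, measure_univ, one_smul]
    · rw [Measure.map_snd_prod, measure_univ, one_smul]
    · rw [hW]; simp
  · have hlt : (⨅ (q : Measure (X × X)) (_ : IsCoupling q μ ν), QuadraticTransportCost q)
        < W2sq μ ν + δ := ENNReal.lt_add_right hW hδ.ne'
    obtain ⟨q, hq⟩ := iInf_lt_iff.1 hlt
    obtain ⟨hc, hq'⟩ := iInf_lt_iff.1 hq
    exact ⟨q, hc, hq'.le⟩

theorem li_lintegral_en [SecondCountableTopology X] (n : ℕ) (π : Measure (Curve X)) :
    ∫⁻ γ, li_en n γ ∂π = ∑ i ∈ Finset.range (2 ^ n), (2 : ℝ≥0∞) ^ n *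
      QuadraticTransportCost
        (π.map (fun γ : Curve X => (γ (li_dy n i), γ (li_dy n (i + 1))))) := by
  have hev : ∀ a : Time, Measurable (fun γ : Curve X => γ a) := fun a =>
    (continuous_eval_const a).measurable
  unfold li_en
  rw [lintegral_finsetSum]
  · refine Finset.sum_congr rfl (fun i _ => ?_)
    rw [lintegral_const_mul]
    · congr 1
      unfold QuadraticTransportCost
      rw [lintegral_map]
      · exact measurable_edist.pow_const 2
      · exact (hev _).prodMk (hev _)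
    · exact ((hev _).edist (hev _)).pow_const 2
  · intro i _
    exact (((hev _).edist (hev _)).pow_const 2).const_mul _

theorem li_measurable_eval (a : Time) : Measurable (fun γ : Curve X => γ a) :=
  (continuous_eval_const a).measurable

theorem li_level_plan [ProperSpace X] (hgeo : li_GeoSpace X) (μ : Time → Measure X)
    (hμ : ∀ t, IsProbabilityMeasure (μ t)) (B : ℝ≥0∞) (n : ℕ)
    (hW : ∑ i ∈ Finset.range (2 ^ n),
      (2 : ℝ≥0∞) ^ n * W2sq (μ (li_dy n i)) (μ (li_dy n (i + 1))) ≤ B)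
    (ε : ℝ≥0∞) (hε : 0 < ε) :
    ∃ π : Measure (Curve X), IsProbabilityMeasure π ∧ π (li_PG n)ᶜ = 0 ∧
      (∀ i : ℕ, Measure.map (fun γ : Curve X => γ (li_dy n i)) π = μ (li_dy n i)) ∧
      ∫⁻ γ, li_en n γ ∂π ≤ B + ε := by
  set δ : ℝ≥0∞ := ε / 4 ^ n with hδ
  have h4 : (4 : ℝ≥0∞) ^ n ≠ ∞ := by finiteness
  have h40 : (4 : ℝ≥0∞) ^ n ≠ 0 := by positivity
  have hδ0 : 0 < δ := ENNReal.div_pos hε.ne' h4
  set ν : ℕ → Measure X := fun i => μ (li_dy n i) with hνdef
  have hν : ∀ i, IsProbabilityMeasure (ν i) := fun i => hμ _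
  choose q hq hqc using fun i => li_exists_coupling (ν i) (ν (i + 1)) (hν i) (hν (i + 1)) δ hδ0
  obtain ⟨Λ, hΛ, hΛq⟩ := li_chain ν hν q hq (2 ^ n)
  obtain ⟨π, hπ, hPG, hpair⟩ := li_lift hgeo n Λ hΛ
  have hpq : ∀ i < 2 ^ n,
      Measure.map (fun γ : Curve X => (γ (li_dy n i), γ (li_dy n (i + 1)))) π = q i :=
    fun i hi => (hpair i hi).trans (hΛq i hi)
  have hmp : ∀ i, Measurable (fun γ : Curve X => (γ (li_dy n i), γ (li_dy n (i + 1)))) :=
    fun i => (li_measurable_eval _).prodMk (li_measurable_eval _)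
  refine ⟨π, hπ, hPG, ?_, ?_⟩
  · intro i
    by_cases hi : i < 2 ^ n
    · have h1 : Measure.map (fun γ : Curve X => γ (li_dy n i)) π =
          (Measure.map (fun γ : Curve X => (γ (li_dy n i), γ (li_dy n (i + 1)))) π).map
            Prod.fst := by
        rw [Measure.map_map measurable_fst (hmp i)]; rfl
      rw [h1, hpq i hi, (hq i).1]
    · have hi' : 2 ^ n ≤ i := not_lt.1 hi
      have hpos : 0 < 2 ^ n := by positivity
      have hj : 2 ^ n - 1 < 2 ^ n := by omega
      have hj1 : 2 ^ n - 1 + 1 = 2 ^ n := by omega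
      have h0 : li_dy n i = li_dy n (2 ^ n - 1 + 1) := by
        rw [li_dy_top hi', li_dy_top (le_of_eq hj1.symm)]
      have h1 : Measure.map (fun γ : Curve X => γ (li_dy n (2 ^ n - 1 + 1))) π =
          (Measure.map (fun γ : Curve X =>
            (γ (li_dy n (2 ^ n - 1)), γ (li_dy n (2 ^ n - 1 + 1)))) π).map Prod.snd := by
        rw [Measure.map_map measurable_snd (hmp _)]; rfl
      rw [h0, h1, hpq _ hj, (hq _).2]
  · rw [li_lintegral_en]
    calc ∑ i ∈ Finset.range (2 ^ n), (2 : ℝ≥0∞) ^ n * QuadraticTransportCost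
          (π.map (fun γ : Curve X => (γ (li_dy n i), γ (li_dy n (i + 1)))))
        = ∑ i ∈ Finset.range (2 ^ n), (2 : ℝ≥0∞) ^ n * QuadraticTransportCost (q i) := by
          refine Finset.sum_congr rfl (fun i hi => ?_)
          rw [hpq i (Finset.mem_range.1 hi)]
      _ ≤ ∑ i ∈ Finset.range (2 ^ n), ((2 : ℝ≥0∞) ^ n * W2sq (ν i) (ν (i + 1)) +
            (2 : ℝ≥0∞) ^ n * δ) := by
          refine Finset.sum_le_sum (fun i _ => ?_)
          rw [← mul_add]
          gcongr
          exact hqc i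
      _ = ∑ i ∈ Finset.range (2 ^ n), (2 : ℝ≥0∞) ^ n * W2sq (ν i) (ν (i + 1)) + ε := by
          rw [Finset.sum_add_distrib, Finset.sum_const, Finset.card_range, nsmul_eq_mul]
          congr 1
          have h22 : ((2 ^ n : ℕ) : ℝ≥0∞) * ((2 : ℝ≥0∞) ^ n * δ) = 4 ^ n * δ := by
            rw [← mul_assoc]
            congr 1
            push_cast
            rw [← mul_pow]
            norm_num
          rw [h22, hδ, ENNReal.mul_div_cancel h40 h4]
      _ ≤ B + ε := by gcongr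

theorem li_core_tight [ProperSpace X] (P : ℕ → Measure (Curve X))
    (hP : ∀ n, IsProbabilityMeasure (P n)) (μ0 : Measure X) (hμ0 : IsProbabilityMeasure μ0)
    (h0 : ∀ n, Measure.map (fun γ : Curve X => γ timeZero) (P n) = μ0) (C : ℝ≥0∞) (hC : C ≠ ∞)
    (hE : ∀ n, ∫⁻ γ, li_energy γ ∂(P n) ≤ C) (ε : ℝ≥0∞) (hε : 0 < ε) :
    ∃ K : Set (Curve X), IsCompact K ∧ ∀ n, P n Kᶜ ≤ ε := by
  by_cases hεtop : ε = ∞
  · exact ⟨∅, isCompact_empty, fun n => hεtop ▸ le_top⟩
  obtain ⟨o⟩ : Nonempty X := nonempty_of_isProbabilityMeasure μ0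
  have hε2 : 0 < ε / 2 := ENNReal.half_pos hε.ne'
  have hε2top : ε / 2 ≠ ∞ := by
    exact (ENNReal.div_lt_top hεtop (by norm_num)).ne
  -- the radius
  have hlim : Tendsto (fun R : ℕ => μ0 (Metric.closedBall o (R : ℝ))ᶜ) atTop (𝓝 0) := by
    have hanti : Antitone (fun R : ℕ => (Metric.closedBall o (R : ℝ))ᶜ) := by
      intro a b hab
      exact compl_subset_compl.2 (Metric.closedBall_subset_closedBall (by exact_mod_cast hab))
    have hint : ⋂ R : ℕ, (Metric.closedBall o (R : ℝ))ᶜ = ∅ := by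
      ext x
      simp only [mem_iInter, mem_compl_iff, Metric.mem_closedBall, mem_empty_iff_false,
        iff_false, not_forall, not_not]
      exact exists_nat_ge (dist x o)
    have := tendsto_measure_iInter_atTop (μ := μ0)
      (fun R : ℕ => (Metric.isClosed_closedBall (x := o) (ε := (R : ℝ))).measurableSet.compl.nullMeasurableSet)
      hanti ⟨0, measure_ne_top _ _⟩
    rw [hint, measure_empty] at this
    exact this
  obtain ⟨R, hR⟩ := ((tendsto_order.1 hlim).2 _ hε2).exists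
  -- the level
  set c : ℝ≥0 := (C / (ε / 2)).toNNReal + 1 with hc
  have hfin : C / (ε / 2) ≠ ∞ := (ENNReal.div_lt_top hC hε2.ne').ne
  have hc0 : (c : ℝ≥0∞) ≠ 0 := by
    rw [hc]; simp
  have hcC : C / c ≤ ε / 2 := by
    rw [ENNReal.div_le_iff hc0 ENNReal.coe_ne_top]
    have h1 : C / (ε / 2) ≤ c := by
      rw [hc, ENNReal.coe_add, ENNReal.coe_toNNReal hfin]
      exact le_self_add
    calc C = ε / 2 * (C / (ε / 2)) := (ENNReal.mul_div_cancel hε2.ne' hε2top).symm
      _ ≤ ε / 2 * c := by gcongr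
  refine ⟨{γ : Curve X | γ timeZero ∈ Metric.closedBall o (R : ℝ) ∧ li_energy γ ≤ c},
    li_compact (isCompact_closedBall o R) c, fun n => ?_⟩
  have hsub : {γ : Curve X | γ timeZero ∈ Metric.closedBall o (R : ℝ) ∧ li_energy γ ≤ c}ᶜ ⊆
      (fun γ : Curve X => γ timeZero) ⁻¹' (Metric.closedBall o (R : ℝ))ᶜ ∪
        {γ : Curve X | (c : ℝ≥0∞) ≤ li_energy γ} := by
    intro γ hγ
    simp only [mem_compl_iff, mem_ofPred_eq, not_and_or, not_le] at hγ
    rcases hγ with h | h
    · exact Or.inl h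
    · exact Or.inr h.le
  have h1 : P n ((fun γ : Curve X => γ timeZero) ⁻¹' (Metric.closedBall o (R : ℝ))ᶜ) ≤ ε / 2 := by
    rw [← Measure.map_apply (li_measurable_eval timeZero)
      Metric.isClosed_closedBall.measurableSet.compl, h0 n]
    exact hR.le
  have h2 : P n {γ : Curve X | (c : ℝ≥0∞) ≤ li_energy γ} ≤ ε / 2 := by
    refine (meas_ge_le_lintegral_div li_energy_measurable.aemeasurable hc0
      ENNReal.coe_ne_top).trans ?_
    exact (ENNReal.div_le_div_right (hE n) _).trans hcC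
  calc P n _ ≤ P n _ := measure_mono hsub
    _ ≤ _ + _ := measure_union_le _ _
    _ ≤ ε / 2 + ε / 2 := add_le_add h1 h2
    _ = ε := ENNReal.add_halves ε

end Claimed.Agent.R210.LI.CoreA
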