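/-
Row 210 (S0432), layer LI, file Core: THE CORE EXISTENCE THEOREM (dyadic form of Lisini's superposition principle).
Architect: helper332.   Plan of the layer: header of LI/Ifc.lean.   (Assembled from CoreA.lean, WT.lean, PG.lean, Mono.lean, Dy.lean.)
-/
import Claimed.Agent.R210.LI.CoreA

set_option autoImplicit false

open Claims.C0366 Claims.C0366.WeakHessian
open Set Filter MeasureTheory
open scoped ENNReal NNReal Topology

namespace Claimed.Agent.R210.LI.Core

open Claimed.Agent.R210.Defs Claimed.Agent.R210.LI.Defs Claimed.Agent.R210.LI.CoreA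
  Claimed.Agent.R210.LI.WT Claimed.Agent.R210.LI.PG Claimed.Agent.R210.LI.Mono
  Claimed.Agent.R210.LI.Dy

variable {X : Type*} [MetricSpace X] [MeasurableSpace X] [BorelSpace X]

/-- **Core.**  If the dyadic actions of `t ↦ μ t` are bounded by `B < ∞`, there is a plan `π` with the right marginals at all
dyadic times and `∫ li_en k dπ ≤ B` for all `k`. -/
theorem li_core [ProperSpace X] (hgeo : li_GeoSpace X) (μ : Time → Measure X)
    (hμ : ∀ t, IsProbabilityMeasure (μ t)) (B : ℝ≥0∞) (hB : B ≠ ∞)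
    (hW : ∀ n : ℕ, ∑ i ∈ Finset.range (2 ^ n),
      (2 : ℝ≥0∞) ^ n * W2sq (μ (li_dy n i)) (μ (li_dy n (i + 1))) ≤ B) :
    ∃ π : Measure (Curve X), IsProbabilityMeasure π ∧
      (∀ n i : ℕ, Measure.map (fun γ : Curve X => γ (li_dy n i)) π = μ (li_dy n i)) ∧
      ∀ k : ℕ, ∫⁻ γ, li_en k γ ∂π ≤ B := by
  choose P hP hPG hmarg hen using fun n : ℕ =>
    li_level_plan hgeo μ hμ B n (hW n) (((n : ℝ≥0∞) + 1)⁻¹) (by simp)
  have hE : ∀ n, ∫⁻ γ, li_energy γ ∂(P n) ≤ B + 1 := by
    intro n
    have h1 : ∀ᵐ γ ∂(P n), li_energy γ = li_en n γ := by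
      filter_upwards [measure_eq_zero_iff_ae_notMem.1 (hPG n)] with γ hγ
      exact li_pg_energy (by simpa using hγ)
    rw [lintegral_congr_ae h1]
    refine (hen n).trans (add_le_add le_rfl ?_)
    exact ENNReal.inv_le_one.2 (by simp)
  have h0 : ∀ n, Measure.map (fun γ : Curve X => γ timeZero) (P n) = μ timeZero := by
    intro n
    have := hmarg n 0
    rwa [li_dy_zero] at this
  obtain ⟨Q, φ, hQ, hφ, hWT⟩ := li_extract P hP (fun ε hε =>
    li_core_tight P hP (μ timeZero) (hμ _) h0 (B + 1) (by simp [hB]) hE ε hε)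
  refine ⟨Q, hQ, ?_, ?_⟩
  · intro m i
    have hc : Continuous (fun γ : Curve X => γ (li_dy m i)) := continuous_eval_const _
    have h1 := li_wt_map hWT _ hc
    have h2 : li_WT (fun k => ((P ∘ φ) k).map (fun γ : Curve X => γ (li_dy m i)))
        (μ (li_dy m i)) := by
      apply li_wt_of_eventually_eq
      filter_upwards [eventually_ge_atTop m] with k hk
      have hmk : m ≤ φ k := hk.trans (hφ.le_apply)
      obtain ⟨d, hd⟩ := Nat.exists_eq_add_of_le hmk
      have h3 : li_dy m i = li_dy (φ k) (2 ^ d * i) := by rw [hd, li_dy_mul]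
      simp only [Function.comp]
      rw [h3]
      exact hmarg (φ k) _
    have : IsProbabilityMeasure (Q.map (fun γ : Curve X => γ (li_dy m i))) :=
      Measure.isProbabilityMeasure_map hc.measurable.aemeasurable
    have := hμ (li_dy m i)
    exact li_wt_unique h1 h2
  · intro k
    have h1 := li_wt_lintegral_le (fun j => hP (φ j)) hQ hWT (li_enR k) (li_enR_continuous k)
      (li_enR_nonneg k)
    simp only [← li_en_eq_ofReal] at h1
    refine h1.trans ?_
    have h2 : ∀ᶠ j in atTop, ∫⁻ γ, li_en k γ ∂((P ∘ φ) j) ≤ B + (((φ j : ℕ) : ℝ≥0∞) + 1)⁻¹ := by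
      filter_upwards [eventually_ge_atTop k] with j hj
      exact (lintegral_mono fun γ => li_en_mono γ (hj.trans hφ.le_apply)).trans (hen (φ j))
    have h3 : Tendsto (fun j => B + (((φ j : ℕ) : ℝ≥0∞) + 1)⁻¹) atTop (𝓝 B) := by
      have h4 : Tendsto (fun n : ℕ => ((n : ℝ≥0∞) + 1)⁻¹) atTop (𝓝 0) := by
        have h5 : Tendsto (fun n : ℕ => ((n : ℝ≥0∞) + 1)) atTop (𝓝 ∞) := by
          have := ENNReal.tendsto_nat_nhds_top
          exact tendsto_nhds_top_mono this (Eventually.of_forall fun n => le_self_add)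
        simpa using tendsto_inv_iff.2 h5
      have h6 := (h4.comp hφ.tendsto_atTop).const_add B
      simpa using h6
    calc liminf (fun j => ∫⁻ γ, li_en k γ ∂((P ∘ φ) j)) atTop
        ≤ liminf (fun j => B + (((φ j : ℕ) : ℝ≥0∞) + 1)⁻¹) atTop := liminf_le_liminf h2
      _ = B := h3.liminf_eq

end Claimed.Agent.R210.LI.Core
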