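/-
Row 210 (S0432), layer LI, file Sum: the hypotheses of the exported theorems imply those of `li_core` / `li_all_times`.      Architect: helper332.      Uses Dy.lean.
* `li_cs`: Hölder `ENNReal.lintegral_mul_le_Lp_mul_Lq (μ := volume.restrict (Icc s t)) (Real.HolderConjugate.two_two) aemeasurable_const hv.aemeasurable` with `f = 1`, `g = v`:
   `∫⁻ v ≤ (∫⁻ 1)^(1/2) (∫⁻ v^2)^(1/2)`; square both sides (`ENNReal.rpow_natCast`, `← ENNReal.rpow_mul`, `mul_pow`); `∫⁻ 1 = volume (Icc s t) = ofReal (t - s)` (`Real.volume_Icc`).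
* `li_W2sq_self`: the diagonal coupling `q := μ.map (fun x => (x, x))` (`Measure.map_map`, `Measure.map_id`) has cost `∫⁻ edist x x ^ 2 = 0` (`lintegral_map` with `(continuous_edist.measurable.pow_const 2)`, `edist_self`); `W2sq μ μ ≤ cost q` (`iInf₂_le`), `le_zero_iff`/`nonpos_iff_eq_zero`.
* `li_sum_A`: for `i < 2^n`: `dy n i < dy n (i+1)`, difference `1/2^n` (`Dy.li_dy_succ_sub`), so `2^n W_i ≤ 2^n ofReal (1/2^n) ∫⁻_{Icc} A = ∫⁻_{Icc (dy n i) (dy n (i+1))} A` (`ENNReal.ofReal_div_of_pos`, `ENNReal.mul_inv_cancel`, ...).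
   `∫⁻_{Icc a b} = ∫⁻_{Ioc a b}` (`setLIntegral_congr Ioc_ae_eq_Icc.symm`-type / `Measure.restrict_congr_set`), the `Ioc (dy n i) (dy n (i+1))` are pairwise disjoint (`Dy.li_dy_mono`), `lintegral_biUnion_finset`, union `⊆ Icc 0 1`, `lintegral_mono_set`.
   (Alternative: induction on `j ≤ 2^n`: `Σ_{i<j} ∫⁻_{Ioc ..} A = ∫⁻_{Ioc 0 (dy n j)} A`, `lintegral_union`, `Ioc_union_Ioc_eq_Ioc`.)
* `li_cont_A`: `s_n := dy n ⌊t 2^n⌋₊ ≤ t` (`Dy.li_dy_floor_le`).  `W2sq (μ s_n) (μ t) ≤ ofReal (t - s_n) * ∫⁻_{Icc 0 1} A` in both cases (`s_n = t`: `li_W2sq_self`, `Subtype.ext`; `s_n < t`: `hW`, `lintegral_mono_set`);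
   `ofReal (t - s_n) → 0` (`Dy.li_dy_floor_sub_le`, or `Dy.li_dy_floor_tendsto`), `ENNReal.Tendsto.mul_const _ (Or.inr hAfin.ne)`, `tendsto_of_tendsto_of_tendsto_of_le_of_le tendsto_const_nhds`.
-/
import Claimed.Agent.R210.LI.Dy

set_option autoImplicit false

open Claims.C0366 Claims.C0366.WeakHessian
open Set Filter MeasureTheory
open scoped ENNReal NNReal Topology

namespace Claimed.Agent.R210.LI.Sum

open Claimed.Agent.R210.Defs Claimed.Agent.R210.LI.Defs Claimed.Agent.R210.LI.Dy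

variable {X : Type*} [MetricSpace X] [MeasurableSpace X] [BorelSpace X]

/-- Cauchy-Schwarz on an interval. -/
theorem li_cs (v : ℝ → ℝ≥0∞) (hv : Measurable v) (s t : ℝ) (hst : s ≤ t) :
    (∫⁻ r in Set.Icc s t, v r) ^ 2 ≤ ENNReal.ofReal (t - s) * ∫⁻ r in Set.Icc s t, (v r) ^ 2 := by
  have h := ENNReal.lintegral_mul_le_Lp_mul_Lq (volume.restrict (Icc s t)) Real.HolderConjugate.two_two
    (f := fun _ => (1:ℝ≥0∞)) (g := v) aemeasurable_const hv.aemeasurable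
  simp only [Pi.mul_apply, one_mul, ENNReal.one_rpow, lintegral_const, MeasurableSet.univ,
    Measure.restrict_apply, univ_inter, Real.volume_Icc] at h
  calc (∫⁻ r in Set.Icc s t, v r) ^ 2
      ≤ (ENNReal.ofReal (t - s) ^ (1 / (2:ℝ)) * (∫⁻ r in Set.Icc s t, v r ^ (2:ℝ)) ^ (1 / (2:ℝ))) ^ 2 := by
        gcongr
    _ = ENNReal.ofReal (t - s) * ∫⁻ r in Set.Icc s t, (v r) ^ 2 := by
        rw [mul_pow, ← ENNReal.rpow_natCast, ← ENNReal.rpow_natCast, ← ENNReal.rpow_mul, ← ENNReal.rpow_mul]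
        norm_num

theorem li_W2sq_self [SecondCountableTopology X] (μ : Measure X) : W2sq μ μ = 0 := by
  have hm : Measurable (fun x : X => (x, x)) := measurable_id.prodMk measurable_id
  have hc : IsCoupling (μ.map (fun x : X => (x, x))) μ μ := by
    constructor
    · rw [Measure.map_map measurable_fst hm]
      exact Measure.map_id
    · rw [Measure.map_map measurable_snd hm]
      exact Measure.map_id
  have h0 : QuadraticTransportCost (μ.map (fun x : X => (x, x))) = 0 := by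
    unfold QuadraticTransportCost
    rw [lintegral_map (continuous_edist.measurable.pow_const 2) hm]
    simp
  have : W2sq μ μ ≤ 0 := by
    rw [← h0]
    unfold W2sq
    exact iInf₂_le (f := fun (q : Measure (X × X)) (_ : IsCoupling q μ μ) => QuadraticTransportCost q) _ hc
  exact le_antisymm this bot_le

/-- telescoping of integrals over consecutive half open intervals -/
theorem li_sum_Ioc (A : ℝ → ℝ≥0∞) (c : ℕ → ℝ) (hc : Monotone c) (j : ℕ) :
    ∑ i ∈ Finset.range j, ∫⁻ r in Set.Ioc (c i) (c (i + 1)), A r = ∫⁻ r in Set.Ioc (c 0) (c j), A r := by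
  induction j with
  | zero => simp
  | succ j ih =>
    rw [Finset.sum_range_succ, ih, ← Ioc_union_Ioc_eq_Ioc (hc (Nat.zero_le j)) (hc (Nat.le_succ j)),
      lintegral_union measurableSet_Ioc]
    rw [Set.disjoint_left]
    intro x hx hx'
    exact absurd hx.2 (not_le.2 hx'.1)

/-- the dyadic actions are bounded by `∫₀¹ A`. -/
theorem li_sum_A (μ : Time → Measure X) (A : ℝ → ℝ≥0∞) (hA : Measurable A)
    (hW : ∀ s t : Time, (s : ℝ) < t →
      W2sq (μ s) (μ t) ≤ ENNReal.ofReal ((t : ℝ) - s) * ∫⁻ r in Set.Icc (s : ℝ) t, A r) (n : ℕ) :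
    ∑ i ∈ Finset.range (2 ^ n), (2 : ℝ≥0∞) ^ n * W2sq (μ (li_dy n i)) (μ (li_dy n (i + 1)))
      ≤ ∫⁻ r in Set.Icc (0 : ℝ) 1, A r := by
  have hmono : Monotone (fun i : ℕ => ((li_dy n i : Time) : ℝ)) := fun i j hij => li_dy_mono n hij
  have h1 : ∀ i ∈ Finset.range (2 ^ n), (2 : ℝ≥0∞) ^ n * W2sq (μ (li_dy n i)) (μ (li_dy n (i + 1)))
      ≤ ∫⁻ r in Set.Ioc ((li_dy n i : Time) : ℝ) ((li_dy n (i + 1) : Time) : ℝ), A r := by
    intro i hi
    have hi' : i < 2 ^ n := Finset.mem_range.1 hi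
    have hd := li_dy_succ_sub hi'
    have hpos : (0 : ℝ) < 1 / 2 ^ n := by positivity
    have hlt : ((li_dy n i : Time) : ℝ) < (li_dy n (i + 1) : Time) := by linarith
    have h2 := hW _ _ hlt
    rw [hd] at h2
    have h3 : (2 : ℝ≥0∞) ^ n * ENNReal.ofReal (1 / 2 ^ n) = 1 := by
      rw [one_div, ENNReal.ofReal_inv_of_pos (by positivity), ENNReal.ofReal_pow (by norm_num)]
      rw [show ENNReal.ofReal 2 = 2 by simp]
      exact ENNReal.mul_inv_cancel (by simp) (by simp)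
    calc (2 : ℝ≥0∞) ^ n * W2sq (μ (li_dy n i)) (μ (li_dy n (i + 1)))
        ≤ (2 : ℝ≥0∞) ^ n * (ENNReal.ofReal (1 / 2 ^ n)
            * ∫⁻ r in Set.Icc ((li_dy n i : Time) : ℝ) ((li_dy n (i + 1) : Time) : ℝ), A r) := by gcongr
      _ = ∫⁻ r in Set.Icc ((li_dy n i : Time) : ℝ) ((li_dy n (i + 1) : Time) : ℝ), A r := by
          rw [← mul_assoc, h3, one_mul]
      _ = ∫⁻ r in Set.Ioc ((li_dy n i : Time) : ℝ) ((li_dy n (i + 1) : Time) : ℝ), A r := by
          rw [Measure.restrict_congr_set Ioc_ae_eq_Icc]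
  refine (Finset.sum_le_sum h1).trans ?_
  rw [li_sum_Ioc A (fun i : ℕ => ((li_dy n i : Time) : ℝ)) hmono]
  refine lintegral_mono_set ?_
  intro x hx
  exact ⟨(li_dy n 0).2.1.trans hx.1.le, hx.2.trans (li_dy n (2 ^ n)).2.2⟩

/-- left continuity along the dyadic approximations. -/
theorem li_cont_A [SecondCountableTopology X] (μ : Time → Measure X) (hμ : ∀ t, IsProbabilityMeasure (μ t))
    (A : ℝ → ℝ≥0∞) (hA : Measurable A) (hAfin : ∫⁻ r in Set.Icc (0 : ℝ) 1, A r < ∞)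
    (hW : ∀ s t : Time, (s : ℝ) < t →
      W2sq (μ s) (μ t) ≤ ENNReal.ofReal ((t : ℝ) - s) * ∫⁻ r in Set.Icc (s : ℝ) t, A r) (t : Time) :
    Tendsto (fun n : ℕ => W2sq (μ (li_dy n ⌊(t : ℝ) * 2 ^ n⌋₊)) (μ t)) atTop (𝓝 0) := by
  have hle : ∀ n : ℕ, W2sq (μ (li_dy n ⌊(t : ℝ) * 2 ^ n⌋₊)) (μ t)
      ≤ ENNReal.ofReal ((t : ℝ) - (li_dy n ⌊(t : ℝ) * 2 ^ n⌋₊ : Time)) * ∫⁻ r in Set.Icc (0 : ℝ) 1, A r := by
    intro n
    rcases (li_dy_floor_le n t).lt_or_eq with h | h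
    · refine (hW _ _ h).trans ?_
      gcongr
      · exact (li_dy n _).2.1
      · exact t.2.2
    · have : li_dy n ⌊(t : ℝ) * 2 ^ n⌋₊ = t := Subtype.ext h
      rw [this, li_W2sq_self]
      exact bot_le
  have h0 : Tendsto (fun n : ℕ => ENNReal.ofReal ((t : ℝ) - (li_dy n ⌊(t : ℝ) * 2 ^ n⌋₊ : Time))) atTop (𝓝 0) := by
    have h1 : Tendsto (fun n : ℕ => ((li_dy n ⌊(t : ℝ) * 2 ^ n⌋₊ : Time) : ℝ)) atTop (𝓝 (t : ℝ)) :=
      (continuous_subtype_val.tendsto t).comp (li_dy_floor_tendsto t)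
    have h2 : Tendsto (fun n : ℕ => (t : ℝ) - (li_dy n ⌊(t : ℝ) * 2 ^ n⌋₊ : Time)) atTop (𝓝 0) := by
      have := (tendsto_const_nhds (x := (t : ℝ))).sub h1
      simpa using this
    simpa using ENNReal.tendsto_ofReal h2
  have h3 : Tendsto (fun n : ℕ => ENNReal.ofReal ((t : ℝ) - (li_dy n ⌊(t : ℝ) * 2 ^ n⌋₊ : Time))
      * ∫⁻ r in Set.Icc (0 : ℝ) 1, A r) atTop (𝓝 0) := by
    simpa using ENNReal.Tendsto.mul_const h0 (Or.inr hAfin.ne)
  exact tendsto_of_tendsto_of_tendsto_of_le_of_le tendsto_const_nhds h3 (fun _ => bot_le) hle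

end Claimed.Agent.R210.LI.Sum
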