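/-
Row 210 (S0432), layer LI (superposition principle, lifting of couplings): INTERFACE.   Architect: helper332.
Consumers import this file only.   Everything is stated with frozen notions, `Defs.W2sq` and `LI.Defs` (`li_GeoSpace`, `li_dy`).
The layer uses CU.Ifc (energy ⟹ AC², Hölder, compactness) and no export of OT; `li_GeoSpace X` must be provided by CD3.

EXPORTS   (`[ProperSpace X]`, `hgeo : li_GeoSpace X`)
* `li_superposition_A` (LI1')  `W2sq (μ s) (μ t) ≤ (t-s) ∫_s^t A`, `∫₀¹ A < ∞`  ⟹  plan `π`, `(e_t)_# π = μ t` for ALL `t`, a.e. `IsAC2`, `∫∫ metricSpeed² ≤ ∫₀¹ A`.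
* `li_superposition`   (LI1)   the same with `W2sq (μ s) (μ t) ≤ (∫_s^t v)²`, bound `∫₀¹ v²`.
* `li_lift_coupling`   (LI2)   every probability `q` on `X × X` is `endpointCoupling π`, `π` concentrated on geodesics (no compactness needed).
* `li_geodesic_plan`   (LI3, replaces the "aligned tuples" for GM4)   `μ` given at the DYADIC times with `4^n W2sq (μ (i/2^n)) (μ ((i+1)/2^n)) ≤ W2sq (μ 0) (μ 1) < ∞`
                       ⟹ plan `π` on geodesics, optimal endpoint coupling, `(e_t)_# π = μ t` at all dyadic `t`.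
* `li_lift` (re-exported from Lift.lean): chains of `2^n+1` points lift to piecewise geodesics.

PLAN OF THE LAYER (files; each leaf has its own sketch)
  Dy    arithmetic of `li_dy`.                          Mono  `li_en` continuous, monotone in the level.
  Glue  gluing lemma on standard Borel spaces.          Chain Markov chain of couplings on `ℕ → X`.
  PG    piecewise geodesics: closed, exist, energy.     Speed, Cpt  bridges to CU (`li_energy = cu_energy'`): AC², action, Hölder bound, `{γ 0 ∈ A, li_energy γ ≤ c}` compact.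
  WT    weak convergence, Prokhorov: subsequences.      Lift(A)  finitely valued approximation of the chain, limit.
  Core  level `n` plans, tightness, limit.              AllT  dyadic times ⟹ all times.      Sum, Geo: small analysis.
-/
import Claimed.Agent.R210.LI.Core
import Claimed.Agent.R210.LI.Speed
import Claimed.Agent.R210.LI.AllT
import Claimed.Agent.R210.LI.Sum
import Claimed.Agent.R210.LI.Mono
import Claimed.Agent.R210.LI.Lift
import Claimed.Agent.R210.LI.Geo
import Claimed.Agent.R210.LI.Asm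

set_option autoImplicit false

open Claims.C0366 Claims.C0366.WeakHessian
open Set Filter MeasureTheory
open scoped ENNReal NNReal Topology

namespace Claimed.Agent.R210.LI.Ifc

open Claimed.Agent.R210.Defs Claimed.Agent.R210.LI.Defs
open Claimed.Agent.R210.LI.Core Claimed.Agent.R210.LI.Speed Claimed.Agent.R210.LI.AllT
  Claimed.Agent.R210.LI.Sum Claimed.Agent.R210.LI.Mono Claimed.Agent.R210.LI.Lift
  Claimed.Agent.R210.LI.Geo

variable {X : Type*} [MetricSpace X] [MeasurableSpace X] [BorelSpace X]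

/-- **LI1'** (superposition principle, action form). -/
theorem li_superposition_A [ProperSpace X] (hgeo : li_GeoSpace X) (μ : Time → Measure X)
    (hμ : ∀ t, IsProbabilityMeasure (μ t)) (A : ℝ → ℝ≥0∞) (hA : Measurable A)
    (hAfin : ∫⁻ r in Set.Icc (0 : ℝ) 1, A r < ∞)
    (hW : ∀ s t : Time, (s : ℝ) < t →
      W2sq (μ s) (μ t) ≤ ENNReal.ofReal ((t : ℝ) - s) * ∫⁻ r in Set.Icc (s : ℝ) t, A r) :
    ∃ π : Measure (Curve X), IsProbabilityMeasure π ∧
      (∀ t : Time, Measure.map (fun γ : Curve X => γ t) π = μ t) ∧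
      (∀ᵐ γ ∂π, IsAC2 γ) ∧
      ∫⁻ γ, ∫⁻ t in Set.Icc (0 : ℝ) 1, (metricSpeed γ t) ^ 2 ∂volume ∂π
        ≤ ∫⁻ r in Set.Icc (0 : ℝ) 1, A r := by
  obtain ⟨π, hπ, hdy, hen⟩ := li_core hgeo μ hμ _ hAfin.ne (li_sum_A μ A hA hW)
  have hE : ∫⁻ γ, li_energy γ ∂π ≤ ∫⁻ r in Set.Icc (0 : ℝ) 1, A r := li_lintegral_energy π _ hen
  refine ⟨π, hπ, ?_, ?_, ?_⟩
  · exact li_all_times μ hμ π hπ hdy (hE.trans_lt hAfin) (li_cont_A μ hμ A hA hAfin hW)
  · have := ae_lt_top li_energy_measurable (hE.trans_lt hAfin).ne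
    filter_upwards [this] with γ hγ using li_ac2 γ hγ
  · exact (lintegral_mono fun γ => li_energy_speed γ).trans hE

/-- **LI1** (superposition principle, Lisini). -/
theorem li_superposition [ProperSpace X] (hgeo : li_GeoSpace X) (μ : Time → Measure X)
    (hμ : ∀ t, IsProbabilityMeasure (μ t)) (v : ℝ → ℝ≥0∞) (hv : Measurable v)
    (hvfin : ∫⁻ r in Set.Icc (0 : ℝ) 1, (v r) ^ 2 < ∞)
    (hW : ∀ s t : Time, (s : ℝ) < t →
      W2sq (μ s) (μ t) ≤ (∫⁻ r in Set.Icc (s : ℝ) t, v r) ^ 2) :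
    ∃ π : Measure (Curve X), IsProbabilityMeasure π ∧
      (∀ t : Time, Measure.map (fun γ : Curve X => γ t) π = μ t) ∧
      (∀ᵐ γ ∂π, IsAC2 γ) ∧
      ∫⁻ γ, ∫⁻ t in Set.Icc (0 : ℝ) 1, (metricSpeed γ t) ^ 2 ∂volume ∂π
        ≤ ∫⁻ r in Set.Icc (0 : ℝ) 1, (v r) ^ 2 :=
  li_superposition_A hgeo μ hμ (fun r => (v r) ^ 2) (hv.pow_const 2) hvfin
    fun s t hst => (hW s t hst).trans (li_cs v hv s t hst.le)

/-- **LI2** (lifting of couplings to geodesics). -/
theorem li_lift_coupling [ProperSpace X] (hgeo : li_GeoSpace X) (q : Measure (X × X))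
    (hq : IsProbabilityMeasure q) :
    ∃ π : Measure (Curve X), IsProbabilityMeasure π ∧ (∀ᵐ γ ∂π, IsGeodesic γ) ∧
      endpointCoupling π = q :=
  Asm.li_lift_coupling' hgeo q hq

/-- **LI3** (a dyadic `W₂`-geodesic is represented by a plan on geodesics). -/
theorem li_geodesic_plan [ProperSpace X] (hgeo : li_GeoSpace X) (μ : Time → Measure X)
    (hμ : ∀ t, IsProbabilityMeasure (μ t)) (hfin : W2sq (μ timeZero) (μ timeOne) ≠ ∞)
    (hW : ∀ n i : ℕ, i < 2 ^ n →
      (4 : ℝ≥0∞) ^ n * W2sq (μ (li_dy n i)) (μ (li_dy n (i + 1))) ≤ W2sq (μ timeZero) (μ timeOne)) :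
    ∃ π : Measure (Curve X), IsProbabilityMeasure π ∧ (∀ᵐ γ ∂π, IsGeodesic γ) ∧
      IsOptimalCoupling (endpointCoupling π) (μ timeZero) (μ timeOne) ∧
      ∀ n i : ℕ, Measure.map (fun γ : Curve X => γ (li_dy n i)) π = μ (li_dy n i) :=
  Asm.li_geodesic_plan' hgeo μ hμ hfin hW

end Claimed.Agent.R210.LI.Ifc
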