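/-
Row 210 (S0432), layer LI, file Asm: assembly of LI2 and LI3 from the leaves.      Architect: helper332.   Plan of the layer: header of LI/Ifc.lean.

* `li_lift_coupling'`:  apply `Lift.li_lift hgeo 0 Λ` to `Λ = q.map (fun p i => if i = 0 then p.1 else p.2)` (measurable by `measurable_pi_iff`);
  `li_PG 0` = geodesics (`Geo.li_pg_zero`), `li_dy 0 0 = timeZero`, `li_dy 0 1 = timeOne` (unfold `li_dy, clampTime, timeZero, timeOne`; `Subtype.ext`; `simp`),
  `Measure.map_map`, the composed map is `id`.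
* `li_geodesic_plan'`:  `W := W2sq (μ 0) (μ 1)`.  (1) `Σ_{i<2^n} 2^n w_i ≤ W`:  multiply by `2^n` (`ENNReal.mul_le_mul_left`-type cancellation, `2^n ≠ 0, ∞`): `Σ 4^n w_i ≤ 2^n W`.
  (2) `Core.li_core` gives `π`.   (3) `endpointCoupling π` is a coupling of `(μ 0, μ 1)` (`Measure.map_map`, marginals at `li_dy 0 0`, `li_dy 0 1`);
  its cost is `∫ li_en 0 dπ` (`lintegral_map`, `Mono.li_en_zero`) `≤ W ≤` cost of any coupling (`iInf₂_le`): optimal; also `W ≤ ∫ li_en 0 dπ`.
  (4) for each `k`: `li_en 0 ≤ li_en k` pointwise (`Mono.li_en_mono`), `∫ li_en k ≤ W ≤ ∫ li_en 0 < ∞` ⟹ `li_en k ≤ li_en 0` a.e.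
  (`ae_le_of_lintegral_le`-type lemma: e.g. `ae_eq_of_ae_le_of_lintegral_le`), `ae_all_iff`;  (5) `Geo.li_geodesic_of_en`.
-/
import Claimed.Agent.R210.LI.Core
import Claimed.Agent.R210.LI.Mono
import Claimed.Agent.R210.LI.Lift
import Claimed.Agent.R210.LI.Geo

set_option autoImplicit false

open Claims.C0366 Claims.C0366.WeakHessian
open Set Filter MeasureTheory
open scoped ENNReal NNReal Topology

namespace Claimed.Agent.R210.LI.Asm

open Claimed.Agent.R210.Defs Claimed.Agent.R210.LI.Defs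
open Claimed.Agent.R210.LI.Core Claimed.Agent.R210.LI.Mono Claimed.Agent.R210.LI.Lift
  Claimed.Agent.R210.LI.Geo

variable {X : Type*} [MetricSpace X] [MeasurableSpace X] [BorelSpace X]

/-- **LI2** (lifting of couplings to geodesics). -/
theorem li_lift_coupling' [ProperSpace X] (hgeo : li_GeoSpace X) (q : Measure (X × X))
    (hq : IsProbabilityMeasure q) :
    ∃ π : Measure (Curve X), IsProbabilityMeasure π ∧ (∀ᵐ γ ∂π, IsGeodesic γ) ∧
      endpointCoupling π = q := by
  have hΦm : Measurable (fun (p : X × X) (i : ℕ) => if i = 0 then p.1 else p.2) := by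
    refine measurable_pi_iff.2 (fun i => ?_)
    by_cases hi : i = 0
    · simp only [hi, if_true]
      exact measurable_fst
    · simp only [hi, if_false]
      exact measurable_snd
  have hΛ : IsProbabilityMeasure (q.map (fun (p : X × X) (i : ℕ) => if i = 0 then p.1 else p.2)) :=
    Measure.isProbabilityMeasure_map hΦm.aemeasurable
  obtain ⟨π, hπ, hPG, hmap⟩ := li_lift hgeo 0 _ hΛ
  refine ⟨π, hπ, ?_, ?_⟩
  · filter_upwards [measure_eq_zero_iff_ae_notMem.1 hPG] with γ hγ
    exact (li_pg_zero γ).1 (by simpa using hγ)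
  · have h0 := hmap 0 (by norm_num)
    rw [Dy.li_dy_zero, zero_add, Dy.li_dy_zero_one] at h0
    unfold endpointCoupling
    rw [h0, Measure.map_map ((measurable_pi_apply 0).prodMk (measurable_pi_apply 1)) hΦm]
    have hid : (fun w : ℕ → X => (w 0, w 1)) ∘
        (fun (p : X × X) (i : ℕ) => if i = 0 then p.1 else p.2) = id := by
      funext p
      simp
    rw [hid, Measure.map_id]

/-- **LI3** (a dyadic `W₂`-geodesic is represented by a plan on geodesics). -/
theorem li_geodesic_plan' [ProperSpace X] (hgeo : li_GeoSpace X) (μ : Time → Measure X)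
    (hμ : ∀ t, IsProbabilityMeasure (μ t)) (hfin : W2sq (μ timeZero) (μ timeOne) ≠ ∞)
    (hW : ∀ n i : ℕ, i < 2 ^ n →
      (4 : ℝ≥0∞) ^ n * W2sq (μ (li_dy n i)) (μ (li_dy n (i + 1))) ≤ W2sq (μ timeZero) (μ timeOne)) :
    ∃ π : Measure (Curve X), IsProbabilityMeasure π ∧ (∀ᵐ γ ∂π, IsGeodesic γ) ∧
      IsOptimalCoupling (endpointCoupling π) (μ timeZero) (μ timeOne) ∧
      ∀ n i : ℕ, Measure.map (fun γ : Curve X => γ (li_dy n i)) π = μ (li_dy n i) := by
  -- (1) the dyadic actions are bounded by `W`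
  have h1 : ∀ n : ℕ, ∑ i ∈ Finset.range (2 ^ n),
      (2 : ℝ≥0∞) ^ n * W2sq (μ (li_dy n i)) (μ (li_dy n (i + 1)))
        ≤ W2sq (μ timeZero) (μ timeOne) := by
    intro n
    have h20 : (2 : ℝ≥0∞) ^ n ≠ 0 := by positivity
    have h2t : (2 : ℝ≥0∞) ^ n ≠ ∞ := ENNReal.pow_ne_top (by norm_num)
    have hterm : ∀ i ∈ Finset.range (2 ^ n),
        (2 : ℝ≥0∞) ^ n * W2sq (μ (li_dy n i)) (μ (li_dy n (i + 1)))
          ≤ ((2 : ℝ≥0∞) ^ n)⁻¹ * W2sq (μ timeZero) (μ timeOne) := by
      intro i hi
      rw [← ENNReal.mul_le_iff_le_inv h20 h2t, ← mul_assoc, ← mul_pow]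
      have h4 : (2 : ℝ≥0∞) * 2 = 4 := by norm_num
      rw [h4]
      exact hW n i (Finset.mem_range.1 hi)
    refine (Finset.sum_le_card_nsmul _ _ _ hterm).trans (le_of_eq ?_)
    rw [Finset.card_range, nsmul_eq_mul, ← mul_assoc]
    push_cast
    rw [ENNReal.mul_inv_cancel h20 h2t, one_mul]
  -- (2) the plan
  obtain ⟨π, hπ, hmarg, hen⟩ := li_core hgeo μ hμ _ hfin h1
  have he0 : Measurable (fun γ : Curve X => γ timeZero) := (continuous_eval_const _).measurable
  have he1 : Measurable (fun γ : Curve X => γ timeOne) := (continuous_eval_const _).measurable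
  have he : Measurable (fun γ : Curve X => (γ timeZero, γ timeOne)) := he0.prodMk he1
  -- (3) the endpoint coupling
  have hcpl : IsCoupling (endpointCoupling π) (μ timeZero) (μ timeOne) := by
    constructor
    · unfold endpointCoupling
      rw [Measure.map_map measurable_fst he]
      have := hmarg 0 0
      rw [Dy.li_dy_zero] at this
      exact this
    · unfold endpointCoupling
      rw [Measure.map_map measurable_snd he]
      have := hmarg 0 1
      rw [Dy.li_dy_zero_one] at this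
      exact this
  have hcost : QuadraticTransportCost (endpointCoupling π) = ∫⁻ γ, li_en 0 γ ∂π := by
    unfold QuadraticTransportCost endpointCoupling
    rw [lintegral_map (measurable_edist.pow_const 2) he]
    simp only [li_en_zero]
  have hWle : ∀ q' : Measure (X × X), IsCoupling q' (μ timeZero) (μ timeOne) →
      W2sq (μ timeZero) (μ timeOne) ≤ QuadraticTransportCost q' := fun q' hq' => iInf₂_le q' hq'
  have hW0 : W2sq (μ timeZero) (μ timeOne) ≤ ∫⁻ γ, li_en 0 γ ∂π := by
    rw [← hcost]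
    exact hWle _ hcpl
  refine ⟨π, hπ, ?_, ⟨hcpl, fun q' hq' => ?_⟩, hmarg⟩
  · -- (4), (5)
    have hk : ∀ k : ℕ, ∀ᵐ γ ∂π, li_en k γ ≤ li_en 0 γ := by
      intro k
      have hae := ae_eq_of_ae_le_of_lintegral_le (μ := π) (f := fun γ => li_en 0 γ)
        (g := fun γ => li_en k γ) (Eventually.of_forall fun γ => li_en_mono γ (Nat.zero_le k))
        (ne_top_of_le_ne_top hfin (hen 0)) (li_en_continuous k).measurable.aemeasurable
        ((hen k).trans hW0)
      filter_upwards [hae] with γ hγ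
      exact le_of_eq hγ.symm
    filter_upwards [ae_all_iff.2 hk] with γ hγ
    exact li_geodesic_of_en γ hγ
  · rw [hcost]
    exact (hen 0).trans (hWle q' hq')

end Claimed.Agent.R210.LI.Asm
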